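import Crest.Agent.N337.Basic
import Crest.Agent.N337.FV.Defs
import Crest.Agent.N337.Free.Main

-- ▼ part N337/FV/KVG1
section

/-!
# Row 337, FV-KVG part 1: energy estimates and the abstract covering bound (helper96)
-/

set_option autoImplicit false
set_option linter.unusedSectionVars false

namespace Crest.Agent.N337.FV.KVG

open Finset Crest.MathPhysics.SpinModel

variable {X : Type} [Fintype X] [DecidableEq X] {J : X → X → ℝ} {S h : ℝ} {a g : X → ℝ}

/-- local energy -/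
noncomputable def en (J : X → X → ℝ) (S h : ℝ) (g : X → ℝ) (x : X) : ℝ :=
  S * ∑ y, J x y * (g x - g y) ^ 2 + h * g x ^ 2

theorem en_nonneg (hJ : Ferro J) (hS : 0 ≤ S) (hh : 0 ≤ h) (x : X) : 0 ≤ en J S h g x :=
  add_nonneg (mul_nonneg hS (sum_nonneg fun y _ => mul_nonneg (hJ.nonneg x y) (sq_nonneg _)))
    (mul_nonneg hh (sq_nonneg _))

theorem green (hJ : Ferro J) (hg : ∀ x, S * ∑ y, J x y * (g x - g y) + h * g x = a x)
    (φ : X → ℝ) : ∑ x, a x * φ x =
      ∑ x, ∑ y, S / 2 * J x y * ((g x - g y) * (φ x - φ y)) + ∑ x, h * (g x * φ x) := by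
  have h1 : ∑ x, ∑ y, J x y * (g x - g y) * φ y = -∑ x, ∑ y, J x y * (g x - g y) * φ x := by
    rw [sum_comm, ← sum_neg_distrib]
    refine sum_congr rfl fun x _ => ?_
    rw [← sum_neg_distrib]
    exact sum_congr rfl fun y _ => by rw [hJ.symm y x]; ring
  have h2 : ∑ x, ∑ y, S / 2 * J x y * ((g x - g y) * (φ x - φ y)) =
      S / 2 * (∑ x, ∑ y, J x y * (g x - g y) * φ x - ∑ x, ∑ y, J x y * (g x - g y) * φ y) := by
    simp only [← sum_sub_distrib, mul_sum]
    exact sum_congr rfl fun x _ => sum_congr rfl fun y _ => by ring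
  have h3 : ∑ x, a x * φ x = S * ∑ x, ∑ y, J x y * (g x - g y) * φ x + ∑ x, h * (g x * φ x) := by
    rw [mul_sum, ← sum_add_distrib]
    exact sum_congr rfl fun x _ => by rw [← hg x, ← sum_mul]; ring
  rw [h2, h1, h3]; ring

theorem sum_en_le (hJ : Ferro J) (hh : 0 ≤ h)
    (hg : ∀ x, S * ∑ y, J x y * (g x - g y) + h * g x = a x) :
    ∑ x, en J S h g x ≤ 2 * ∑ x, a x * g x := by
  rw [green hJ hg g, ← sum_add_distrib, mul_sum]
  refine sum_le_sum fun x _ => ?_
  have : S * ∑ y, J x y * (g x - g y) ^ 2 =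
      2 * ∑ y, S / 2 * J x y * ((g x - g y) * (g x - g y)) := by
    rw [mul_sum, mul_sum]; exact sum_congr rfl fun y _ => by ring
  have h2 : 0 ≤ h * g x ^ 2 := by positivity
  unfold en
  nlinarith

theorem cs_weight (hJ : Ferro J) (hS : 0 ≤ S) (hh : 0 ≤ h)
    (hg : ∀ x, S * ∑ y, J x y * (g x - g y) + h * g x = a x) {w : X → ℝ} (hw : ∀ x, 1 ≤ w x)
    (φ : X → ℝ) : (∑ x, a x * φ x) ^ 2 ≤ (∑ x, a x * g x + ∑ x, (w x - 1) * en J S h g x) *
      (S * ((1 / 2) * ∑ x, ∑ y, J x y * (φ x - φ y) ^ 2 / max (w x) (w y)) +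
        h * ∑ x, φ x ^ 2 / w x) := by
  have hw0 : ∀ x, 0 < w x := fun x => by linarith [hw x]
  have hm : ∀ x y, 0 < max (w x) (w y) := fun x y => lt_max_of_lt_left (hw0 x)
  have hc : ∀ x y, 0 ≤ S / 2 * J x y := fun x y => mul_nonneg (by linarith) (hJ.nonneg x y)
  have h1 := sum_sq_le_sum_mul_sum_of_sq_eq_mul (univ : Finset ((X × X) ⊕ X))
    (r := Sum.elim (fun p => S / 2 * J p.1 p.2 * ((g p.1 - g p.2) * (φ p.1 - φ p.2)))
      fun x => h * (g x * φ x))
    (f := Sum.elim (fun p => S / 2 * J p.1 p.2 * (g p.1 - g p.2) ^ 2 * max (w p.1) (w p.2))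
      fun x => h * g x ^ 2 * w x)
    (g := Sum.elim (fun p => S / 2 * J p.1 p.2 * (φ p.1 - φ p.2) ^ 2 / max (w p.1) (w p.2))
      fun x => h * φ x ^ 2 / w x)
    (by
      rintro (p | x) _
      · exact mul_nonneg (mul_nonneg (hc _ _) (sq_nonneg _)) (hm _ _).le
      · exact mul_nonneg (mul_nonneg hh (sq_nonneg _)) (hw0 _).le)
    (by
      rintro (p | x) _
      · exact div_nonneg (mul_nonneg (hc _ _) (sq_nonneg _)) (hm _ _).le
      · exact div_nonneg (mul_nonneg hh (sq_nonneg _)) (hw0 _).le)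
    (by
      rintro (p | x) _
      · have := (hm p.1 p.2).ne'
        simp only [Sum.elim_inl]; field_simp
      · have := (hw0 x).ne'
        simp only [Sum.elim_inr]; field_simp)
  simp only [Fintype.sum_sum_type, Sum.elim_inl, Sum.elim_inr, Fintype.sum_prod_type] at h1
  rw [← green hJ hg φ] at h1
  have e1 : ∑ x, ∑ y, S / 2 * J x y * (φ x - φ y) ^ 2 / max (w x) (w y) +
      ∑ x, h * φ x ^ 2 / w x = S * ((1 / 2) * ∑ x, ∑ y, J x y * (φ x - φ y) ^ 2 / max (w x) (w y)) +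
        h * ∑ x, φ x ^ 2 / w x := by
    simp only [mul_sum]
    congr 1
    · exact sum_congr rfl fun x _ => sum_congr rfl fun y _ => by ring
    · exact sum_congr rfl fun x _ => by ring
  rw [e1] at h1
  refine h1.trans (mul_le_mul_of_nonneg_right ?_ (e1 ▸ add_nonneg
    (sum_nonneg fun x _ => sum_nonneg fun y _ =>
      div_nonneg (mul_nonneg (hc _ _) (sq_nonneg _)) (hm _ _).le)
    (sum_nonneg fun x _ => div_nonneg (mul_nonneg hh (sq_nonneg _)) (hw0 _).le)))
  have h2 : ∑ x, ∑ y, S / 2 * J x y * (g x - g y) ^ 2 * (w y - 1) =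
      ∑ x, ∑ y, S / 2 * J x y * (g x - g y) ^ 2 * (w x - 1) := by
    rw [sum_comm]
    exact sum_congr rfl fun x _ => sum_congr rfl fun y _ => by rw [hJ.symm y x]; ring
  have h3 : ∑ x, ∑ y, S / 2 * J x y * (g x - g y) ^ 2 * max (w x) (w y) ≤
      ∑ x, ∑ y, S / 2 * J x y * ((g x - g y) * (g x - g y)) +
        ∑ x, ∑ y, S / 2 * J x y * (g x - g y) ^ 2 * (w x - 1) +
        ∑ x, ∑ y, S / 2 * J x y * (g x - g y) ^ 2 * (w y - 1) := by
    simp only [← sum_add_distrib]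
    refine sum_le_sum fun x _ => sum_le_sum fun y _ => ?_
    have h4 : max (w x) (w y) ≤ 1 + (w x - 1) + (w y - 1) :=
      max_le (by linarith [hw y]) (by linarith [hw x])
    have h5 := mul_le_mul_of_nonneg_left h4 (mul_nonneg (hc x y) (sq_nonneg (g x - g y)))
    linarith
  have h4 : ∑ x, (w x - 1) * en J S h g x =
      2 * ∑ x, ∑ y, S / 2 * J x y * (g x - g y) ^ 2 * (w x - 1) +
        (∑ x, h * g x ^ 2 * w x - ∑ x, h * (g x * g x)) := by
    simp only [en, mul_sum, ← sum_sub_distrib, ← sum_add_distrib, mul_add]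
    refine sum_congr rfl fun x _ => ?_
    congr 1
    · exact sum_congr rfl fun y _ => by ring
    · ring
  rw [green hJ hg g, h4]
  linarith

theorem sum_biUnion_le' {ι α : Type} [DecidableEq α] (s : Finset ι) (t : ι → Finset α)
    {f : α → ℝ} (hf : ∀ x, 0 ≤ f x) : ∑ x ∈ s.biUnion t, f x ≤ ∑ i ∈ s, ∑ x ∈ t i, f x := by
  classical
  induction s using Finset.induction_on with
  | empty => simp
  | insert i s hi ih =>
    rw [biUnion_insert, sum_insert hi]
    have h1 := sum_union_inter (s₁ := t i) (s₂ := s.biUnion t) (f := f)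
    have h2 : 0 ≤ ∑ x ∈ t i ∩ s.biUnion t, f x := sum_nonneg fun x _ => hf x
    linarith

theorem rar_nonneg (n : ℕ) (J : X → X → ℝ) (β h : ℝ) (B : Finset X) (m : ℕ) :
    0 ≤ rar n J β h B m := by
  have := Qf_nonneg (n := n) J β h (ind B)
  unfold rar; positivity

/-- the infrared bound for an abstract covering scheme -/
theorem kv_abs (hK : KVStmt) {n : ℕ} {β : ℝ} (hn : 1 ≤ n) (hJ : Ferro J) (hβ : 0 < β)
    (hh : 0 < h) (ha : ∀ x, 0 ≤ a x)
    (hg : ∀ x, spinVal n * ∑ y, J x y * (g x - g y) + h * g x = a x) {ι : Type} (s : Finset ι)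
    (W : ι → Finset (Finset X)) (N : ι → X → Prop) [∀ i x, Decidable (N i x)] (κ r : ι → ℝ)
    (D : ι → X → ℝ) {σ T : ℝ} (hne : ∀ i, ∅ ∉ W i) (hκ : ∀ i, 0 ≤ κ i) (hr0 : ∀ i, 0 ≤ r i)
    (hcov : ∀ R : Finset X, ∃ (Good : Finset X) (w : X → ℝ), Disjoint Good R ∧
      (∀ x, x ∉ Good → ∃ i ∈ s, N i x ∧ ∃ B ∈ W i, B ⊆ R) ∧
      (∀ x, w x = 1 ∨ (1 ≤ w x ∧ ∃ i ∈ s, w x ≤ κ i ∧ N i x ∧ ∃ B ∈ W i, B ⊆ R)) ∧
      ∀ ψ : X → ℝ, (∀ x, 0 ≤ ψ x) → ∃ φ : X → ℝ, (∀ x, 0 ≤ φ x) ∧ (∀ x ∈ Good, φ x = ψ x) ∧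
        (1 / 2) * ∑ x, ∑ y, J x y * (φ x - φ y) ^ 2 / max (w x) (w y) ≤ dir J R ψ ∧
        ∑ x, φ x ^ 2 / w x ≤ ∑ x ∈ Rᶜ, ψ x ^ 2)
    (hr : ∀ i ∈ s, ∀ B ∈ W i, ∀ x, rar n J β h (insert x B) B.card ≤ r i)
    (hD : ∀ i ∈ s, ∀ B ∈ W i, ∀ x, N i x →
      ∑ v ∈ insert x B, duh n J β h (SpF n a) (Sm n v) ≤ D i x)
    (hσ : ∀ x, ∑ i ∈ s with N i x, κ i * ((W i).card * r i) ≤ σ)
    (hT : ∑ x, a x * ∑ i ∈ s with N i x, (W i).card * (r i * D i x) ≤ T) :
    Df n J β h a ≤ n * ((1 + 2 * σ) * ∑ x, a x * g x) + 2 * n * Real.exp 1 * T := by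
  have hS : 0 ≤ spinVal n := by unfold spinVal; positivity
  have he := en_nonneg (g := g) hJ hS hh.le
  have hs := sum_en_le hJ hh.le hg
  have hc0 : 0 ≤ ∑ x, a x * g x := by linarith [sum_nonneg fun x (_ : x ∈ univ) => he x]
  let E : ι → ℝ := fun i => κ i * ∑ x with N i x, en J (spinVal n) h g x
  have hE : ∀ i, 0 ≤ E i := fun i => mul_nonneg (hκ i) (sum_nonneg fun x _ => he x)
  have hE' : ∀ F : ι → ℝ, ∑ i ∈ s, E i * F i =
      ∑ x, en J (spinVal n) h g x * ∑ i ∈ s with N i x, κ i * F i := fun F => by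
    simp only [E, sum_filter, mul_sum, sum_mul]
    rw [sum_comm]
    exact sum_congr rfl fun x _ => sum_congr rfl fun i _ => by split_ifs <;> ring
  let c : Finset X → ℝ := fun A => ∑ i ∈ s, if A ∈ W i then E i else 0
  have hc : ∀ (t : Finset (Finset X)) (F : Finset X → ℝ),
      ∑ A ∈ t, c A * F A = ∑ i ∈ s, E i * ∑ A ∈ W i with A ∈ t, F A := fun t F => by
    simp only [c, sum_mul]
    rw [sum_comm]
    refine sum_congr rfl fun i _ => ?_
    rw [filter_mem_eq_inter, inter_comm, ← filter_mem_eq_inter, sum_filter, mul_sum]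
    exact sum_congr rfl fun A _ => by split_ifs <;> ring
  have h1 := hK X n J β h hn hJ hβ hh a ha (∑ x, a x * g x) c
    (fun x => (s.filter fun i => N i x).biUnion W) hc0
    (fun A => sum_nonneg fun i _ => by split_ifs; exacts [hE i, le_rfl])
    (sum_eq_zero fun i _ => if_neg (hne i)) (fun x => by simp [hne]) fun R => ?_
  · refine h1.trans (add_le_add (mul_le_mul_of_nonneg_left ?_ (Nat.cast_nonneg n))
      (mul_le_mul_of_nonneg_left (le_trans ?_ hT) (by positivity)))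
    · have h2 : ∑ A, c A * rar n J β h A A.card ≤ ∑ i ∈ s, E i * ((W i).card * r i) := by
        rw [hc]
        refine sum_le_sum fun i hi => mul_le_mul_of_nonneg_left ?_ (hE i)
        rw [filter_true_of_mem fun _ _ => mem_univ _, ← nsmul_eq_mul]
        refine sum_le_card_nsmul _ _ _ fun B hB => ?_
        obtain ⟨x, hx⟩ := nonempty_iff_ne_empty.2 (ne_of_mem_of_not_mem hB (hne i))
        have := hr i hi B hB x
        rwa [insert_eq_of_mem hx] at this
      rw [hE'] at h2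
      have h3 : ∑ x, en J (spinVal n) h g x * ∑ i ∈ s with N i x, κ i * ((W i).card * r i) ≤
          ∑ x, en J (spinVal n) h g x * σ :=
        sum_le_sum fun x _ => mul_le_mul_of_nonneg_left (hσ x) (he x)
      rw [← sum_mul] at h3
      rcases isEmpty_or_nonempty X with hX | ⟨⟨x⟩⟩
      · simp only [univ_eq_empty, sum_empty] at h2 ⊢; linarith
      have hσ0 : 0 ≤ σ := le_trans (sum_nonneg fun i _ =>
        mul_nonneg (hκ i) (mul_nonneg (Nat.cast_nonneg _) (hr0 i))) (hσ x)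
      nlinarith
    · have hd : ∀ v, 0 ≤ duh n J β h (SpF n a) (Sm n v) := fun v =>
        duh_nonneg h hJ hβ.le (pos_SpF ha) (pos_Sm v)
      refine sum_le_sum fun x _ => mul_le_mul_of_nonneg_left ?_ (ha x)
      refine (sum_biUnion_le' _ _ fun B => mul_nonneg (rar_nonneg _ _ _ _ _ _)
        (sum_nonneg fun v _ => hd v)).trans (sum_le_sum fun i hi => ?_)
      rw [← nsmul_eq_mul]
      refine sum_le_card_nsmul _ _ _ fun B hB => ?_
      exact mul_le_mul (hr i (mem_filter.1 hi).1 B hB x) (hD i (mem_filter.1 hi).1 B hB x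
        (mem_filter.1 hi).2) (sum_nonneg fun v _ => hd v) (hr0 i)
  · obtain ⟨Good, w, g1, g2, g3, g4⟩ := hcov R
    refine ⟨Good, g1, fun ψ hψ => ?_, fun x hx => ?_⟩
    · obtain ⟨φ, p1, p2, p3, p4⟩ := g4 ψ hψ
      have hw : ∀ x, 1 ≤ w x := fun x => (g3 x).elim (fun h => h.ge) fun h => h.1
      have h2 : ∑ x ∈ Good, a x * ψ x ≤ ∑ x, a x * φ x := by
        rw [← sum_congr rfl fun x hx => congrArg (a x * ·) (p2 x hx)]
        exact sum_le_sum_of_subset_of_nonneg (subset_univ _) fun x _ _ => mul_nonneg (ha x) (p1 x)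
      have h3 : ∑ x, (w x - 1) * en J (spinVal n) h g x ≤ ∑ A ∈ R.powerset, c A := by
        have h4 := hc R.powerset fun _ => 1
        simp only [mul_one] at h4
        rw [h4, hE']
        refine sum_le_sum fun x _ => ?_
        rw [mul_comm]
        refine mul_le_mul_of_nonneg_left ?_ (he x)
        have h5 : ∀ i, 0 ≤ κ i * ∑ A ∈ W i with A ∈ R.powerset, (1 : ℝ) := fun i =>
          mul_nonneg (hκ i) (sum_nonneg fun _ _ => zero_le_one)
        rcases g3 x with h6 | ⟨-, i, hi, h6, h7, B, hB, hBR⟩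
        · rw [h6, sub_self]; exact sum_nonneg fun i _ => h5 i
        · refine le_trans ?_ (single_le_sum (fun i _ => h5 i) (mem_filter.2 ⟨hi, h7⟩))
          have h8 : (1 : ℝ) ≤ ∑ A ∈ W i with A ∈ R.powerset, (1 : ℝ) :=
            single_le_sum (f := fun _ => (1 : ℝ)) (fun _ _ => zero_le_one)
              (mem_filter.2 ⟨hB, mem_powerset.2 hBR⟩)
          nlinarith [hκ i]
      have h4 := cs_weight hJ hS hh.le hg hw φ
      have h5 : 0 ≤ ∑ x, (w x - 1) * en J (spinVal n) h g x :=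
        sum_nonneg fun x _ => mul_nonneg (sub_nonneg.2 (hw x)) (he x)
      refine (pow_le_pow_left₀ (sum_nonneg fun x _ => mul_nonneg (ha x) (hψ x)) h2 2).trans
        (h4.trans (mul_le_mul (by linarith) (add_le_add (mul_le_mul_of_nonneg_left p3 hS)
          (mul_le_mul_of_nonneg_left p4 hh.le)) ?_ (by linarith)))
      refine add_nonneg (mul_nonneg hS (mul_nonneg (by norm_num) (sum_nonneg fun x _ =>
        sum_nonneg fun y _ => div_nonneg (mul_nonneg (hJ.nonneg x y) (sq_nonneg _)) ?_)))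
        (mul_nonneg hh.le (sum_nonneg fun x _ => div_nonneg (sq_nonneg _) (by linarith [hw x])))
      exact le_max_of_le_left (by linarith [hw x])
    · obtain ⟨i, hi, h2, B, hB, hBR⟩ := g2 x hx
      exact ⟨B, mem_biUnion.2 ⟨i, mem_filter.2 ⟨hi, h2⟩, hB⟩, hBR⟩

theorem Qf_add_le (n : ℕ) (J : X → X → ℝ) (β h : ℝ) (a b : X → ℝ) :
    Qf n J β h (a + b) ≤ 2 * Qf n J β h a + 2 * Qf n J β h b := by
  have h1 := Qf_nonneg (n := n) J β h (a - b)
  have e1 : SpF n (a + b) = SpF n a + SpF n b := by simp [SpF, add_smul, sum_add_distrib]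
  have e2 : SmF n (a + b) = SmF n a + SmF n b := by simp [SmF, add_smul, sum_add_distrib]
  have e3 : SpF n (a - b) = SpF n a - SpF n b := by simp [SpF, sub_smul, sum_sub_distrib]
  have e4 : SmF n (a - b) = SmF n a - SmF n b := by simp [SmF, sub_smul, sum_sub_distrib]
  simp only [Qf, e1, e2, e3, e4, Matrix.add_mul, Matrix.mul_add, Matrix.sub_mul, Matrix.mul_sub,
    ev_add, ev_sub] at h1 ⊢
  linarith

theorem Qf_single (n : ℕ) (J : X → X → ℝ) (β h : ℝ) (x : X) :
    Qf n J β h (ind {x}) = ev n J β h (Sm n x * Sp n x) := by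
  simp [Qf, SpF, SmF, ind, apply_ite, ite_smul]

theorem Qf_insert_le (n : ℕ) (J : X → X → ℝ) (β h : ℝ) (x : X) (B : Finset X) :
    Qf n J β h (ind (insert x B)) ≤
      2 * Qf n J β h (ind B) + 2 * ev n J β h (Sm n x * Sp n x) := by
  rw [← Qf_single]
  by_cases hx : x ∈ B
  · rw [insert_eq_of_mem hx]
    linarith [Qf_nonneg (n := n) J β h (ind B), Qf_nonneg (n := n) J β h (ind {x})]
  · have : ind (insert x B) = ind B + ind {x} := by
      funext y
      by_cases hy : y = x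
      · simp [ind, hy, hx]
      · simp [ind, hy]
    rw [this]
    exact Qf_add_le n J β h _ _

end Crest.Agent.N337.FV.KVG
end

-- ▼ part N337/FV/KVG

/-!
# Row 337, FV-KVG: the infrared bound on the torus under a smallness hypothesis (helper96)
-/

set_option autoImplicit false

namespace Crest.Agent.N337.FV

open Finset Crest.MathPhysics.SpinModel Crest.Agent.N337.Free
open scoped ComplexConjugate

namespace KVG

variable {d L : ℕ} [NeZero L] {J : (Fin d → ℤ) → ℝ}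

theorem lap_ker (hJ : Coup J) (n : ℕ) (f : Tor d L → ℝ) (x z : Tor d L) :
    spinVal n * ∑ y, torJ J L x y * (ker f (x - z) - ker f (y - z)) =
      ker (fun k => epsT n J k * f k) (x - z) := by
  have key : ∀ k : Tor d L, spinVal n * ∑ y, torJ J L x y * ((chi k (x - z)).re -
      (chi k (y - z)).re) = epsT n J k * (chi k (x - z)).re := fun k => by
    have := congrArg (fun c => (c * conj (chi k z)).re) (lap_chi hJ n k x)
    simpa only [mul_assoc, sum_mul, sub_mul, ← chi_sub, Complex.re_ofReal_mul, Complex.re_sum,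
      Complex.sub_re] using this
  simp only [ker, ← sub_div, ← sum_sub_distrib, ← mul_sub, ← mul_div_assoc, ← sum_div]
  congr 1
  simp only [mul_sum] at key ⊢
  rw [sum_comm]
  refine sum_congr rfl fun k _ => ?_
  rw [mul_right_comm, ← key, sum_mul]
  exact sum_congr rfl fun y _ => by ring

theorem resolvent (hJ : Coup J) (n : ℕ) {h : ℝ} (hh : 0 < h) (a : Tor d L → ℝ) (x : Tor d L) :
    spinVal n * ∑ y, torJ J L x y * (∑ z, ker (fun k => 1 / (epsT n J k + h)) (x - z) * a z -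
      ∑ z, ker (fun k => 1 / (epsT n J k + h)) (y - z) * a z) +
      h * ∑ z, ker (fun k => 1 / (epsT n J k + h)) (x - z) * a z = a x := by
  have key : ∀ z, spinVal n * ∑ y, torJ J L x y * (ker (fun k => 1 / (epsT n J k + h)) (x - z) -
      ker (fun k => 1 / (epsT n J k + h)) (y - z)) +
      h * ker (fun k => 1 / (epsT n J k + h)) (x - z) = if x = z then 1 else 0 := fun z => by
    rw [lap_ker hJ]
    have := ker_one (x - z)
    simp only [sub_eq_zero] at this
    rw [← this]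
    simp only [ker, ← mul_div_assoc h, ← add_div, mul_sum, ← sum_add_distrib]
    congr 1
    refine sum_congr rfl fun k _ => ?_
    have : epsT n J k + h ≠ 0 := (add_pos_of_nonneg_of_pos (eps_nonneg hJ n _) hh).ne'
    field_simp
  calc _ = ∑ z, (if x = z then 1 else 0) * a z := by
        simp only [← key, add_mul, sum_add_distrib, ← sum_sub_distrib, mul_sum, sum_mul]
        rw [sum_comm]
        congr 1
        · exact sum_congr rfl fun y _ => sum_congr rfl fun z _ => by ring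
        · exact sum_congr rfl fun z _ => by ring
    _ = a x := by simp

theorem sum_near_le (x : Tor d L) (jm : ℕ) (rad : ℕ → ℕ) (F : ℕ × Tor d L → ℝ) (G κ : ℕ → ℝ)
    (hG : ∀ j, 0 ≤ G j) (hF : ∀ j ≤ jm, ∀ u, F (j, u) ≤ G j)
    (hκ : ∀ j ≤ jm, ((2 * rad j + 1 : ℕ) : ℝ) ^ d ≤ κ j) :
    ∑ i ∈ range (jm + 1) ×ˢ (univ : Finset (Tor d L)) with tdist x i.2 ≤ rad i.1, F i ≤
      ∑ j ∈ range (jm + 1), κ j * G j := by
  rw [sum_filter, sum_product]
  refine sum_le_sum fun j hj => ?_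
  have hj' := Nat.lt_succ_iff.1 (mem_range.1 hj)
  rw [← sum_filter]
  refine (sum_le_card_nsmul _ _ _ fun u _ => hF j hj' u).trans ?_
  rw [nsmul_eq_mul]
  refine mul_le_mul_of_nonneg_right (le_trans ?_ (hκ j hj')) (hG j)
  exact_mod_cast card_ball_le x (rad j)

theorem geo_le {θ : ℝ} (h0 : 0 ≤ θ) (h1 : θ ≤ 1 / 2) (m : ℕ) :
    ∑ j ∈ range m, θ ^ (2 ^ (j + 1)) ≤ 2 * θ ^ 2 := by
  have key : ∀ m, ∑ j ∈ range m, θ ^ (2 ^ (j + 1)) ≤ 2 * θ ^ 2 - 2 * θ ^ (m + 2) := fun m => by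
    induction m with
    | zero => simp
    | succ m ih =>
      rw [sum_range_succ]
      have h2 : θ ^ (2 ^ (m + 1)) ≤ θ ^ (m + 2) :=
        pow_le_pow_of_le_one h0 (by linarith) (Nat.lt_two_pow_self (n := m + 1))
      have h3 : θ ^ (m + 2) * θ ≤ θ ^ (m + 2) * (1 / 2) := by gcongr
      rw [show m + 1 + 2 = m + 2 + 1 by ring, pow_succ θ (m + 2)]
      linarith
  linarith [key m, pow_nonneg h0 (m + 2)]

end KVG

open KVG in
theorem kvg (hM : ModeStmt) (hK : KVStmt) (hG : GeoStmt) : KVGStmt := by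
  intro d n J hd hn hJ
  obtain ⟨K, L1, hK1, hGeo⟩ := hG d J (by omega) hJ
  obtain ⟨L2, hMode⟩ := hM d n J hd hn hJ
  obtain ⟨C3, L3, -, hFree⟩ := free d n J hd hn hJ
  obtain ⟨t, ht⟩ : ∃ t : ℝ, t = 2 * n * Real.exp 1 := ⟨_, rfl⟩
  have ht1 : 1 ≤ t := by
    have h1 : (1 : ℝ) ≤ n := by exact_mod_cast hn
    have h2 := Real.add_one_le_exp 1
    rw [ht]; nlinarith
  obtain ⟨p, hp⟩ : ∃ p : ℝ, p = K ^ 3 * t := ⟨_, rfl⟩
  have hp1 : 1 ≤ p := hp ▸ one_le_mul_of_one_le_of_one_le (one_le_pow₀ hK1) ht1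
  obtain ⟨q, hq⟩ : ∃ q : ℝ, q = t * 2 ^ d := ⟨_, rfl⟩
  have hq1 : 1 ≤ q := hq ▸ one_le_mul_of_one_le_of_one_le ht1 (one_le_pow₀ one_le_two)
  have hpq : 1 ≤ q * p := one_le_mul_of_one_le_of_one_le hq1 hp1
  refine ⟨K, (4 + 2 * q) * (20 * p ^ 2), 1 / (80 * q * p ^ 2), max L1 (max L2 L3), hK1,
    by nlinarith, by positivity, ?_⟩
  intro L _ hL β h η0 η1 hβ hh a0 a1 b0 b1 hrS hQ a ha
  obtain ⟨jm, 𝒲, rad, g1, g2, g3, g4, g5⟩ := hGeo L (by omega)
  obtain ⟨-, m2, -, -, -, m6⟩ := hMode L (by omega) β h hβ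
  obtain ⟨hF, -, -, f4⟩ := hFree L (by omega)
  obtain ⟨-, -, -, m7, m8⟩ := m6 a
  rw [le_div_iff₀ (by positivity)] at a1 b1
  have a2 : η0 * (80 * p) ≤ 1 := le_trans (by nlinarith [mul_nonneg a0 (by linarith : 0 ≤ p)]) a1
  have b2 : η1 * (80 * p) ≤ 1 := le_trans (by nlinarith [mul_nonneg b0 (by linarith : 0 ≤ p)]) b1
  have hS : ∀ x : Tor d L, ev n (torJ J L) β h (Sm n x * Sp n x) ≤ η0 := fun x => by
    have := m2 0 0 x
    rw [zero_add] at this
    rw [this]; exact hrS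
  let r : ℕ → ℝ := fun j => if j = 0 then t * (4 * η0) else (t * (2 * η1 + η0)) ^ (2 ^ j)
  have hr0 : ∀ j, 0 ≤ r j := fun j => by simp only [r]; split_ifs <;> positivity
  obtain ⟨σ, hσ⟩ : ∃ σ, σ = ∑ j ∈ range (jm + 1), (K ^ 2 ^ j) ^ 3 * r j := ⟨_, rfl⟩
  have hσ0 : 0 ≤ σ := hσ ▸ sum_nonneg fun j _ => mul_nonneg (by positivity) (hr0 j)
  have hσ1 : σ ≤ 20 * p ^ 2 * (η0 + η1 ^ 2) := by
    have h1 := geo_le (θ := p * (2 * η1 + η0)) (by positivity) (by nlinarith) jm
    have h2 : ∀ j, (K ^ 2 ^ (j + 1)) ^ 3 * r (j + 1) = (p * (2 * η1 + η0)) ^ 2 ^ (j + 1) :=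
      fun j => by
        simp only [r, Nat.succ_ne_zero, if_false]
        rw [hp, mul_assoc, mul_pow (K ^ 3), ← pow_mul, ← pow_mul, mul_comm 3]
    rw [hσ, sum_range_succ', sum_congr rfl fun j _ => h2 j]
    simp only [r, if_true, pow_zero, pow_one]
    rw [← mul_assoc, ← hp]
    have h3 : (2 * η1 + η0) ^ 2 ≤ 8 * η1 ^ 2 + 2 * η0 := by nlinarith [sq_nonneg (2 * η1 - η0)]
    have h4 : p ^ 2 * (2 * η1 + η0) ^ 2 ≤ p ^ 2 * (8 * η1 ^ 2 + 2 * η0) := by gcongr
    have h5 : p * η0 ≤ p ^ 2 * η0 := by gcongr; nlinarith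
    have h6 : 0 ≤ p ^ 2 * η0 := by positivity
    have h7 : 0 ≤ p ^ 2 * η1 ^ 2 := by positivity
    nlinarith
  have hdu : ∀ v, 0 ≤ duh n (torJ J L) β h (SpF n a) (Sm n v) := fun v =>
    duh_nonneg h hF hβ.le (pos_SpF ha) (pos_Sm v)
  have hDf := Df_nonneg (n := n) (torJ J L) h hβ.le a
  let D : ℕ → Tor d L → ℝ := fun j x =>
    ∑ w with tdist 0 w ≤ 2 * rad j, duh n (torJ J L) β h (SpF n a) (Sm n (x + w))
  have hD0 : ∀ j x, 0 ≤ D j x := fun j x => sum_nonneg fun w _ => hdu _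
  have main := kv_abs hK hn hF hβ hh ha (resolvent hJ n hh a)
    (range (jm + 1) ×ˢ (univ : Finset (Tor d L))) (fun i => 𝒲 i.1 i.2)
    (fun i x => tdist x i.2 ≤ rad i.1) (fun i => K ^ 2 ^ i.1) (fun i => r i.1)
    (fun i => D i.1) (σ := σ) (T := 2 ^ d * σ * Df n (torJ J L) β h a)
    (fun i hi => absurd (g4 _ _ _ hi).1 (by simp [(Nat.two_pow_pos _).ne])) (fun i => by positivity)
    (fun i => hr0 _) (fun R => ?_) (fun i hi B hB x => ?_) (fun i hi B hB x hx => ?_)
    (fun x => ?_) ?_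
  · have e1 : ∑ x, a x * ∑ z, ker (fun k => 1 / (epsT n J k + h)) (x - z) * a z =
        gform n J h a := by
      have := (m8 (fun k => 1 / (epsT n J k + h)) fun k => by rw [epsT_neg hJ]).2.1
      simp only [mul_sum, ← mul_assoc]
      rw [← this, gform]
      simp only [one_div_mul_eq_div]
    have hc0 : 0 ≤ gform n J h a := e1 ▸ sum_nonneg fun x _ => mul_nonneg (ha x)
      (sum_nonneg fun z _ => mul_nonneg ((f4 h hh).1 _) (ha z))
    rw [e1, ← ht, ← mul_assoc t, ← mul_assoc t, ← hq] at main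
    have h1 : 0 ≤ (n : ℝ) * gform n J h a := by positivity
    have h2 : η1 ^ 2 ≤ η1 := by nlinarith
    have h3 : q * σ ≤ q * (20 * p ^ 2 * (η0 + η1 ^ 2)) := by gcongr
    have h4 : q * (20 * p ^ 2 * (η0 + η1 ^ 2)) ≤ q * (20 * p ^ 2 * (η0 + η1)) := by gcongr
    have h5 : q * σ ≤ 1 / 2 := by linarith
    have h6 : 0 ≤ q * σ := by positivity
    set x := q * σ with hx
    set y := (n : ℝ) * gform n J h a with hy
    have h7 : Df n (torJ J L) β h a * (1 - x) ≤ (1 + 2 * σ) * y := by rw [hy]; linarith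
    have h8 : Df n (torJ J L) β h a ≤ (1 + 2 * σ) * y * (1 + 2 * x) := by
      have h9 := mul_le_mul_of_nonneg_right h7 (by linarith : 0 ≤ 1 + 2 * x)
      have h10 : 0 ≤ Df n (torJ J L) β h a * (x * (1 - 2 * x)) :=
        mul_nonneg hDf (mul_nonneg h6 (by linarith))
      linarith
    have h9 : (1 + 2 * σ) * (1 + 2 * x) ≤ 1 + (4 + 2 * q) * (20 * p ^ 2) * (η0 + η1 ^ 2) := by
      have := mul_le_mul_of_nonneg_left h5 hσ0
      linarith
    rw [mul_assoc, ← hy]
    exact h8.trans (by rw [mul_right_comm]; exact mul_le_mul_of_nonneg_right h9 h1)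
  · obtain ⟨Good, w, k1, k2, k3, k4⟩ := g5 R
    refine ⟨Good, w, k1, fun x hx => ?_, fun x => (k3 x).imp_right ?_, k4⟩
    · obtain ⟨j, hj, u, h1, h2⟩ := k2 x hx
      exact ⟨(j, u), by simp [hj], h1, h2⟩
    · rintro ⟨h0, j, hj, h1, u, h2, h3⟩
      exact ⟨h0, (j, u), by simp [hj], h1, h2, h3⟩
  · obtain ⟨k1, -, k3⟩ := g4 _ _ _ hB
    have hj : i.1 ≤ jm := Nat.lt_succ_iff.1 (mem_range.1 (mem_product.1 hi).1)
    have h1 := Qf_insert_le n (torJ J L) β h x B
    have h2 := Qf_nonneg (n := n) (torJ J L) β h (ind (insert x B))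
    simp only [rar, r, ← ht]
    split_ifs with h0
    · rw [h0, pow_zero] at k1
      obtain ⟨y, rfl⟩ := card_eq_one.1 k1
      rw [Qf_single] at h1
      rw [card_singleton, pow_one, Nat.cast_one, div_one]
      exact mul_le_mul_of_nonneg_left (by linarith [hS x, hS y]) (by linarith)
    · have h3 := hQ B k3 (k1 ▸ (Nat.pow_le_pow_right two_pos hj).trans g1)
      have h4 : (2 : ℝ) ≤ B.card := by
        rw [k1]; exact_mod_cast Nat.le_self_pow h0 2
      rw [← k1, mul_div_assoc]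
      gcongr
      rw [div_le_iff₀ (by linarith)]
      nlinarith [hS x]
  · obtain ⟨-, k2, -⟩ := g4 _ _ _ hB
    have h1 : ∑ v ∈ insert x B, duh n (torJ J L) β h (SpF n a) (Sm n v) =
        ∑ w ∈ (insert x B).map (Equiv.subRight x).toEmbedding,
          duh n (torJ J L) β h (SpF n a) (Sm n (x + w)) := by
      rw [sum_map]; simp
    rw [h1]
    refine sum_le_sum_of_subset_of_nonneg (fun w hw => ?_) fun w _ _ => hdu _
    obtain ⟨v, hv, rfl⟩ := mem_map.1 hw
    refine mem_filter.2 ⟨mem_univ _, ?_⟩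
    change tdist 0 (v - x) ≤ _
    rw [← tdist_eq]
    rcases mem_insert.1 hv with rfl | hv
    · rw [tdist_self]; exact Nat.zero_le _
    · have := tdist_triangle x i.2 v
      have := k2 v hv
      omega
  · refine (sum_near_le x jm rad _ (fun j => K ^ 2 ^ j * (K ^ 2 ^ j * r j)) _
      (fun j => mul_nonneg (by positivity) (mul_nonneg (by positivity) (hr0 j)))
      (fun j _ u => mul_le_mul_of_nonneg_left (mul_le_mul_of_nonneg_right (g2 j u) (hr0 j))
        (by positivity)) g3).trans (le_of_eq ?_)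
    rw [hσ]
    exact sum_congr rfl fun j _ => by ring
  · have h1 : ∀ j ∈ range (jm + 1), ∑ x, a x * D j x ≤
        2 ^ d * K ^ 2 ^ j * Df n (torJ J L) β h a := fun j hj => by
      simp only [D, mul_sum]
      rw [sum_comm]
      refine (sum_le_card_nsmul _ _ _ fun w _ => m7 w).trans ?_
      rw [nsmul_eq_mul]
      refine mul_le_mul_of_nonneg_right ?_ hDf
      have h2 : ((univ.filter fun w : Tor d L => tdist 0 w ≤ 2 * rad j).card : ℝ) ≤
          ((2 * (2 * rad j + 1) : ℕ) : ℝ) ^ d := by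
        exact_mod_cast (card_ball_le 0 _).trans (Nat.pow_le_pow_left (by omega) d)
      rw [Nat.cast_mul, mul_pow, Nat.cast_ofNat] at h2
      exact h2.trans (mul_le_mul_of_nonneg_left (g3 j (Nat.lt_succ_iff.1 (mem_range.1 hj)))
        (by positivity))
    calc _ ≤ ∑ x, a x * ∑ j ∈ range (jm + 1), K ^ 2 ^ j * (K ^ 2 ^ j * (r j * D j x)) :=
          sum_le_sum fun x _ => mul_le_mul_of_nonneg_left (sum_near_le x jm rad _ _ _
            (fun j => mul_nonneg (by positivity) (mul_nonneg (hr0 j) (hD0 j x)))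
            (fun j _ u => mul_le_mul_of_nonneg_right (g2 j u) (mul_nonneg (hr0 j) (hD0 j x))) g3)
            (ha x)
      _ = ∑ j ∈ range (jm + 1), (K ^ 2 ^ j) ^ 2 * r j * ∑ x, a x * D j x := by
          simp only [mul_sum]
          rw [sum_comm]
          exact sum_congr rfl fun j _ => sum_congr rfl fun x _ => by ring
      _ ≤ ∑ j ∈ range (jm + 1), (K ^ 2 ^ j) ^ 2 * r j *
            (2 ^ d * K ^ 2 ^ j * Df n (torJ J L) β h a) :=
          sum_le_sum fun j hj => mul_le_mul_of_nonneg_left (h1 j hj)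
            (mul_nonneg (by positivity) (hr0 j))
      _ = _ := by
          rw [hσ, mul_sum, sum_mul]
          exact sum_congr rfl fun j _ => by ring

end Crest.Agent.N337.FV
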