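import Crest.Agent.N337.Basic
import Crest.Agent.N337.Mom
import Crest.Agent.N337.FV.Defs
import Crest.Agent.N337.Free.Main

-- ▼ part N337/FV/High1
section

/-!
# Row 337, FV-High I: general operator lemmas (one mode, correlation bounds)
-/

set_option autoImplicit false

namespace Crest.Agent.N337.FV.Hi

open Crest.MathPhysics.SpinModel Filter Topology Matrix

variable {X : Type} [Fintype X] [DecidableEq X] {n : ℕ} {J : X → X → ℝ} {β h : ℝ}

/-- entrywise order is compatible with products. -/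
theorem pos_mul_sub {A A' B B' : Op X n} (hA : Pos A) (hB' : Pos B') (h1 : Pos (A' - A))
    (h2 : Pos (B' - B)) : Pos (A' * B' - A * B) := by
  have : A' * B' - A * B = (A' - A) * B' + A * (B' - B) := by noncomm_ring
  rw [this]; exact (h1.mul hB').add (hA.mul h2)

omit [Fintype X] [DecidableEq X] in
theorem pos_sub_self (A : Op X n) : Pos (A - A) := by rw [sub_self]; exact pos_zero

theorem ev_csmul (hJ : Ferro J) (hβ : 0 ≤ β) {A : Op X n} (hA : Pos A) (c : ℂ) :
    ev n J β h (c • A) = c.re * ev n J β h A := by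
  have hp : Pos (A * W n J h β) := hA.mul (pos_W hJ h hβ)
  have him : (A * W n J h β).trace.im = 0 := by
    simp only [Matrix.trace, Matrix.diag_apply, Complex.im_sum]
    exact Finset.sum_eq_zero fun i _ => (hp i i).1
  unfold ev
  rw [smul_mul_assoc, Matrix.trace_smul, smul_eq_mul, Complex.mul_re, him]
  ring

open scoped ComplexOrder in
theorem eq_zero_of_ev (B : Op X n) (h0 : ev n J β h (B * Bᴴ) = 0) : B = 0 := by
  have hZ := Zp_pos (n := n) J β h
  have h1 : (B * Bᴴ * W n J h β).trace.re = 0 := by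
    unfold ev at h0
    rcases div_eq_zero_iff.1 h0 with h | h
    · exact h
    · exact absurd h hZ.ne'
  have hW : W n J h β = W n J h (β / 2) * W n J h (β / 2) := by rw [← W_add]; congr 1; ring
  set M : Op X n := W n J h (β / 2) * B with hM
  have hMM : (B * Bᴴ * W n J h β).trace = (Mᴴ * M).trace := by
    rw [hM, Matrix.conjTranspose_mul, (W_herm J h (β / 2)).eq, hW, Matrix.mul_assoc B,
      Matrix.trace_mul_comm B]
    simp only [Matrix.mul_assoc]
  have hps : (0 : ℂ) ≤ (Mᴴ * M).trace := (Matrix.posSemidef_conjTranspose_mul_self M).trace_nonneg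
  have hz : (Mᴴ * M).trace = 0 := by
    apply Complex.ext
    · rw [← hMM, h1]; rfl
    · exact (Complex.nonneg_iff.1 hps).2.symm
  have hM0 : M = 0 := Matrix.trace_conjTranspose_mul_self_eq_zero_iff.1 hz
  have : B = W n J h (-(β / 2)) * M := by
    rw [hM, ← Matrix.mul_assoc, ← W_add, neg_add_cancel, W_zero, Matrix.one_mul]
  rw [this, hM0, Matrix.mul_zero]

theorem exp_half_bound {A : ℝ} (hA : 1 ≤ A) : 1 ≤ 3 * Real.exp (-(A / 2)) * (Real.exp (A / 2) - 1) := by
  have h1 : Real.exp (-(A / 2)) * Real.exp (A / 2) = 1 := by rw [← Real.exp_add]; simp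
  have h2 : A / 2 + 1 ≤ Real.exp (A / 2) := Real.add_one_le_exp _
  have h3 : 0 < Real.exp (-(A / 2)) := Real.exp_pos _
  have h4 : Real.exp (-(A / 2)) * (3 / 2) ≤ 1 := by nlinarith
  nlinarith

theorem one_mode_real {β u v t q E A N : ℝ} (hβ : 0 < β) (hE : 0 < E) (hA : 1 ≤ A)
    (hAE : A ≤ β * E) (hN0 : 0 ≤ N) (hu0 : 0 < u) (hv0 : 0 < v) (hq : 0 ≤ q)
    (h7 : β * (E * u + t) ≤ u * Real.log (v / u)) (hcs : t ^ 2 ≤ u * q) (hN : v - u ≤ N) :
    u ≤ 4 * q / E ^ 2 + 3 * N * Real.exp (-(A / 2)) := by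
  have ht1 : 0 ≤ 4 * q / E ^ 2 := by positivity
  have ht2 : 0 ≤ 3 * N * Real.exp (-(A / 2)) := by positivity
  by_cases hc : -(E * u / 2) ≤ t
  · have h8 : u * (A / 2) ≤ u * Real.log (v / u) := by
      have : β * (E * u / 2) ≤ β * (E * u + t) := by gcongr; linarith
      nlinarith
    have h9 : A / 2 ≤ Real.log (v / u) := le_of_mul_le_mul_left h8 hu0
    have h10 : Real.exp (A / 2) ≤ v / u := (Real.le_log_iff_exp_le (by positivity)).1 h9
    rw [le_div_iff₀ hu0] at h10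
    have h11 : u * (Real.exp (A / 2) - 1) ≤ N := by linarith
    have h12 := exp_half_bound hA
    have h13 : 0 < Real.exp (-(A / 2)) := Real.exp_pos _
    have : u ≤ 3 * N * Real.exp (-(A / 2)) := by
      calc u = u * 1 := by ring
        _ ≤ u * (3 * Real.exp (-(A / 2)) * (Real.exp (A / 2) - 1)) := by gcongr
        _ = 3 * (u * (Real.exp (A / 2) - 1)) * Real.exp (-(A / 2)) := by ring
        _ ≤ _ := by gcongr
    linarith
  · have hc' : E * u / 2 ≤ -t := by linarith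
    have h8 : (E * u / 2) ^ 2 ≤ t ^ 2 := by
      rw [← neg_sq t]; exact pow_le_pow_left₀ (by positivity) hc' 2
    have h9 : u * (u * E ^ 2) ≤ u * (4 * q) := by nlinarith
    have h10 : u ≤ 4 * q / E ^ 2 := by
      rw [le_div_iff₀ (by positivity)]; exact le_of_mul_le_mul_left h9 hu0
    linarith

/-- the energy-entropy bound for one mode. -/
theorem one_mode (hβ : 0 < β) (B R : Op X n) {E A N : ℝ} (hE : 0 < E) (hA : 1 ≤ A)
    (hAE : A ≤ β * E) (hN0 : 0 ≤ N)
    (hC : B * hamF n J h - hamF n J h * B = ((E : ℝ) : ℂ) • B + R)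
    (hN : ev n J β h (B * Bᴴ) - ev n J β h (Bᴴ * B) ≤ N) :
    ev n J β h (Bᴴ * B) ≤ 4 * ev n J β h (Rᴴ * R) / E ^ 2 + 3 * N * Real.exp (-(A / 2)) := by
  obtain ⟨hu, hv, -, -, -, h6, -, -⟩ := momStmt _ (hamF n J h) B β (hamF_herm J h) hβ
  rw [hC, ← ev_eq] at h6
  rw [← ev_eq] at hu hv
  have hR := ev_star_nonneg J β h R
  rcases hu.eq_or_lt with h0 | hu0
  · rw [← h0]
    exact add_nonneg (div_nonneg (mul_nonneg (by norm_num) hR) (sq_nonneg _)) (by positivity)
  have hv0 : 0 < ev n J β h (B * Bᴴ) := by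
    refine hv.lt_of_ne fun h0 => ?_
    have hB : B = 0 := eq_zero_of_ev B h0.symm
    rw [hB, Matrix.mul_zero, ev_zero] at hu0
    exact lt_irrefl _ hu0
  have h7 := h6 hu0 hv0
  rw [Matrix.mul_add, Matrix.mul_smul, ev_add, ev_smul] at h7
  exact one_mode_real hβ hE hA hAE hN0 hu0 hv0 hR h7 (ev_cs J β h B R) hN

theorem ev_csmul_star (t : ℂ) (Y : Op X n) :
    ev n J β h ((t • Y)ᴴ * (t • Y)) = ‖t‖ ^ 2 * ev n J β h (Yᴴ * Y) := by
  rw [Matrix.conjTranspose_smul, Matrix.smul_mul, Matrix.mul_smul, smul_smul, ← ev_smul]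
  congr 2
  rw [Complex.star_def, Complex.conj_mul']; push_cast; rfl

theorem two_ev_le (P Q : Op X n) :
    2 * ev n J β h (Pᴴ * Q) ≤ ev n J β h (Pᴴ * P) + ev n J β h (Qᴴ * Q) := by
  have h0 := ev_star_nonneg J β h (P - Q)
  have h1 : ev n J β h (Qᴴ * P) = ev n J β h (Pᴴ * Q) := by
    rw [← ev_conjTranspose, Matrix.conjTranspose_mul, Matrix.conjTranspose_conjTranspose]
  rw [Matrix.conjTranspose_sub, Matrix.sub_mul, Matrix.mul_sub, Matrix.mul_sub, ev_sub, ev_sub,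
    ev_sub, h1] at h0
  linarith

/-- Cauchy-Schwarz for a weighted sum of operators. -/
theorem ev_wsum_le {ι : Type} [Fintype ι] (p : ι → ℝ) (hp : ∀ i, 0 ≤ p i) (t : ι → ℂ)
    (Y : ι → Op X n) :
    ev n J β h ((∑ i, (((p i : ℝ) : ℂ) * t i) • Y i)ᴴ * ∑ i, (((p i : ℝ) : ℂ) * t i) • Y i) ≤
      (∑ i, p i * ‖t i‖ ^ 2) * ∑ i, p i * ev n J β h ((Y i)ᴴ * Y i) := by
  rw [Matrix.conjTranspose_sum, Finset.sum_mul_sum, ev_sum]
  simp only [ev_sum]
  have key : ∀ i j, 2 * ev n J β h (((((p i : ℝ) : ℂ) * t i) • Y i)ᴴ * ((((p j : ℝ) : ℂ) * t j) • Y j))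
      ≤ p i * ‖t i‖ ^ 2 * (p j * ev n J β h ((Y j)ᴴ * Y j)) +
        p j * ‖t j‖ ^ 2 * (p i * ev n J β h ((Y i)ᴴ * Y i)) := by
    intro i j
    have h1 := two_ev_le (J := J) (β := β) (h := h) (star (t j) • Y i) (star (t i) • Y j)
    rw [ev_csmul_star, ev_csmul_star, norm_star, norm_star] at h1
    have h2 : ((((p i : ℝ) : ℂ) * t i) • Y i)ᴴ * ((((p j : ℝ) : ℂ) * t j) • Y j) =
        ((p i * p j : ℝ) : ℂ) • ((star (t j) • Y i)ᴴ * (star (t i) • Y j)) := by
      simp only [Matrix.conjTranspose_smul, Matrix.smul_mul, Matrix.mul_smul, smul_smul, star_mul',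
        Complex.star_def, Complex.conj_ofReal, Complex.conj_conj]
      congr 1; push_cast; ring
    rw [h2, ev_smul]
    have := mul_le_mul_of_nonneg_left h1 (mul_nonneg (hp i) (hp j))
    linarith
  have h3 := Finset.sum_le_sum fun i (_ : i ∈ Finset.univ) =>
    Finset.sum_le_sum fun j (_ : j ∈ Finset.univ) => key i j
  simp only [Finset.sum_add_distrib, ← Finset.mul_sum, ← Finset.sum_mul] at h3
  linarith

/-! ### correlation bounds from `NewtonStmt` -/

/-- weights at finitely many points. -/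
noncomputable def pw {k : ℕ} (p : Fin k → X) (α : Fin k → ℝ) : X → ℝ :=
  fun x => ∑ i, if p i = x then α i else 0

omit [Fintype X] in
theorem pw_nonneg {k : ℕ} (p : Fin k → X) {α : Fin k → ℝ} (hα : ∀ i, 0 ≤ α i) (x : X) :
    0 ≤ pw p α x := Finset.sum_nonneg fun i _ => by split_ifs; exacts [hα i, le_rfl]

theorem sum_pw {k : ℕ} (p : Fin k → X) (α : Fin k → ℝ) (S : X → Op X n) :
    ∑ x, ((pw p α x : ℝ) : ℂ) • S x = ∑ i, ((α i : ℝ) : ℂ) • S (p i) := by
  simp only [pw, Complex.ofReal_sum, Finset.sum_smul]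
  rw [Finset.sum_comm]
  refine Finset.sum_congr rfl fun i _ => ?_
  rw [Finset.sum_eq_single (p i)]
  · simp
  · intro x _ hx; simp [Ne.symm hx]
  · simp

omit [Fintype X] [DecidableEq X] in
theorem pos_sum_sub {k : ℕ} {S : Fin k → Op X n} (hS : ∀ i, Pos (S i)) (j : Fin k) :
    Pos (∑ i, S i - S j) := by
  rw [← Finset.add_sum_erase _ _ (Finset.mem_univ j), add_sub_cancel_left]
  exact Pos.sum _ fun i _ => hS i

theorem ev_pw {k : ℕ} (p q : Fin k → X) (α γ : Fin k → ℝ) :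
    ev n J β h (SmF n (pw p α) * SpF n (pw q γ)) =
      ∑ i, ∑ j, α i * γ j * ev n J β h (Sm n (p i) * Sp n (q j)) := by
  unfold SmF SpF
  rw [sum_pw, sum_pw, Finset.sum_mul_sum, ev_sum]
  refine Finset.sum_congr rfl fun i _ => ?_
  rw [ev_sum]
  refine Finset.sum_congr rfl fun j _ => ?_
  rw [Matrix.smul_mul, Matrix.mul_smul, smul_smul, ← Complex.ofReal_mul, ev_smul]

theorem pos_SmF_sub {k : ℕ} (p : Fin k → X) {α : Fin k → ℝ} (hα : ∀ i, 0 ≤ α i) (j : Fin k) :
    Pos (SmF n (pw p α) - ((α j : ℝ) : ℂ) • Sm n (p j)) := by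
  unfold SmF; rw [sum_pw]
  exact pos_sum_sub (S := fun i => ((α i : ℝ) : ℂ) • Sm n (p i))
    (fun i => (pos_Sm _).smul (hα i)) j

theorem pos_SpF_sub {k : ℕ} (p : Fin k → X) {α : Fin k → ℝ} (hα : ∀ i, 0 ≤ α i) (j : Fin k) :
    Pos (SpF n (pw p α) - ((α j : ℝ) : ℂ) • Sp n (p j)) := by
  unfold SpF; rw [sum_pw]
  exact pos_sum_sub (S := fun i => ((α i : ℝ) : ℂ) • Sp n (p i))
    (fun i => (pos_Sp _).smul (hα i)) j

theorem newton2 (hN : NewtonStmt) (hn : 1 ≤ n) (hJ : Ferro J) (hβ : 0 < β) (p q : Fin 2 → X) :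
    ev n J β h (Sm n (p 0) * Sm n (p 1) * (Sp n (q 0) * Sp n (q 1))) ≤
      Real.exp 1 ^ 2 * (∑ i, ∑ j, ev n J β h (Sm n (p i) * Sp n (q j))) ^ 2 := by
  have h1 : ∀ i : Fin 2, (0 : ℝ) ≤ (fun _ => (1 : ℝ)) i := fun _ => zero_le_one
  have hm := fun j => pos_SmF_sub (n := n) p h1 j
  have hp := fun j => pos_SpF_sub (n := n) q h1 j
  simp only [Complex.ofReal_one, one_smul] at hm hp
  have hM := pos_SmF (n := n) (pw_nonneg p h1)
  have hP := pos_SpF (n := n) (pw_nonneg q h1)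
  have h2 := hN X n J β h hn hJ hβ _ _ (pw_nonneg q h1) (pw_nonneg p h1) 2 (by norm_num)
  rw [ev_pw] at h2
  simp only [one_mul] at h2
  refine (ev_mono h hJ hβ.le ?_).trans (h2.trans_eq ?_)
  · rw [sq, sq]
    exact pos_mul_sub ((pos_Sm _).mul (pos_Sm _)) (hP.mul hP)
      (pos_mul_sub (pos_Sm _) hM (hm 0) (hm 1)) (pos_mul_sub (pos_Sp _) hP (hp 0) (hp 1))
  · generalize (∑ i, ∑ j, ev n J β h (Sm n (p i) * Sp n (q j))) = s
    generalize Real.exp 1 = e
    norm_num [Nat.factorial]; ring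

theorem newton3 (hN : NewtonStmt) (hn : 1 ≤ n) (hJ : Ferro J) (hβ : 0 < β) (p q : Fin 3 → X)
    {α γ : Fin 3 → ℝ} (hα : ∀ i, 0 ≤ α i) (hγ : ∀ i, 0 ≤ γ i) :
    α 0 * α 1 * α 2 * (γ 0 * γ 1 * γ 2) *
      ev n J β h (Sm n (p 0) * Sm n (p 1) * Sm n (p 2) * (Sp n (q 0) * Sp n (q 1) * Sp n (q 2))) ≤
      4 / 3 * Real.exp 1 ^ 3 *
        (∑ i, ∑ j, α i * γ j * ev n J β h (Sm n (p i) * Sp n (q j))) ^ 3 := by
  have hm := fun j => pos_SmF_sub (n := n) p hα j
  have hp := fun j => pos_SpF_sub (n := n) q hγ j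
  have hm' := fun j => (pos_Sm (n := n) (p j)).smul (hα j)
  have hp' := fun j => (pos_Sp (n := n) (q j)).smul (hγ j)
  have hM := pos_SmF (n := n) (pw_nonneg p hα)
  have hP := pos_SpF (n := n) (pw_nonneg q hγ)
  have h2 := hN X n J β h hn hJ hβ _ _ (pw_nonneg q hγ) (pw_nonneg p hα) 3 (by norm_num)
  rw [ev_pw] at h2
  have h3 := pos_mul_sub (((hm' 0).mul (hm' 1)).mul (hm' 2)) ((hP.mul hP).mul hP)
    (pos_mul_sub ((hm' 0).mul (hm' 1)) hM (pos_mul_sub (hm' 0) hM (hm 0) (hm 1)) (hm 2))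
    (pos_mul_sub ((hp' 0).mul (hp' 1)) hP (pos_mul_sub (hp' 0) hP (hp 0) (hp 1)) (hp 2))
  have h4 := ev_mono h hJ hβ.le h3
  rw [← pow_three', ← pow_three'] at h4
  simp only [Matrix.smul_mul, Matrix.mul_smul, smul_smul, ← Complex.ofReal_mul, ev_smul] at h4
  refine le_trans (le_of_eq ?_) (h4.trans (h2.trans_eq ?_))
  · ring
  · generalize (∑ i, ∑ j, α i * γ j * ev n J β h (Sm n (p i) * Sp n (q j))) = s
    generalize Real.exp 1 = e
    norm_num [Nat.factorial]; ring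

theorem c_nonneg (hJ : Ferro J) (hβ : 0 < β) (x y : X) : 0 ≤ ev n J β h (Sm n x * Sp n y) :=
  ev_nonneg h hJ hβ.le ((pos_Sm _).mul (pos_Sp _))

theorem c_le {r : ℝ} (hr0 : 0 ≤ r) (hr : ∀ x, ev n J β h (Sm n x * Sp n x) = r) (x y : X) :
    ev n J β h (Sm n x * Sp n y) ≤ r := by
  have := ev_cs (n := n) J β h (Sp n x) (Sp n y)
  rw [Sp_conjTranspose, Sp_conjTranspose, hr, hr, ← sq] at this
  exact le_of_sq_le_sq this hr0 |> fun h => h

/-- the crude bound on the four-point correlation. -/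
theorem corr_crude (hN : NewtonStmt) (hn : 1 ≤ n) (hJ : Ferro J) (hβ : 0 < β) {r : ℝ}
    (hr0 : 0 ≤ r) (hr : ∀ x, ev n J β h (Sm n x * Sp n x) = r) (x y z t : X) :
    ev n J β h (Sm n x * num n y * (num n z * Sp n t)) ≤ 16 * Real.exp 1 ^ 2 * n * r ^ 2 := by
  have hn0 : (0 : ℝ) ≤ n := Nat.cast_nonneg n
  have h1 : Pos (Sm n x * (Sm n y * Sp n y) * ((((n : ℝ) : ℂ) • (1 : Op X n)) * Sp n t) -
      Sm n x * num n y * (num n z * Sp n t)) :=
    pos_mul_sub ((pos_Sm _).mul (pos_num _)) ((pos_one.smul hn0).mul (pos_Sp _))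
      (pos_mul_sub (pos_Sm _) ((pos_Sm _).mul (pos_Sp _)) (pos_sub_self _) (pos_SmSp_sub_num y))
      (pos_mul_sub (pos_num _) (pos_Sp _) (pos_n_sub_num z) (pos_sub_self _))
  have h2 := ev_mono h hJ hβ.le h1
  have h3 : Sm n x * (Sm n y * Sp n y) * ((((n : ℝ) : ℂ) • (1 : Op X n)) * Sp n t) =
      ((n : ℝ) : ℂ) • (Sm n x * Sm n y * (Sp n y * Sp n t)) := by
    simp only [Matrix.smul_mul, Matrix.mul_smul, Matrix.one_mul, Matrix.mul_assoc]
  rw [h3, ev_smul] at h2
  have h4 := newton2 (h := h) hN hn hJ hβ ![x, y] ![y, t]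
  simp only [Fin.sum_univ_two, Matrix.cons_val_zero, Matrix.cons_val_one] at h4
  have hc := fun a b => c_le hr0 hr a b
  have hc0 := fun a b => c_nonneg (n := n) (h := h) hJ hβ a b
  have h5 : (ev n J β h (Sm n x * Sp n y) + ev n J β h (Sm n x * Sp n t) +
      (ev n J β h (Sm n y * Sp n y) + ev n J β h (Sm n y * Sp n t))) ^ 2 ≤ (4 * r) ^ 2 := by
    apply pow_le_pow_left₀
    · linarith [hc0 x y, hc0 x t, hc0 y y, hc0 y t]
    · linarith [hc x y, hc x t, hc y y, hc y t]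
  calc _ ≤ _ := h2
    _ ≤ n * (Real.exp 1 ^ 2 * (4 * r) ^ 2) := mul_le_mul_of_nonneg_left
      (h4.trans (mul_le_mul_of_nonneg_left h5 (sq_nonneg _))) hn0
    _ = _ := by ring

theorem fine_real {T r e : ℝ} (he : 0 ≤ e) (hr0 : 0 ≤ r) (M : Fin 3 → Fin 3 → ℝ)
    (h0 : ∀ i j, 0 ≤ M i j) (h1 : ∀ i j, M i j ≤ r)
    (hT : ∀ α γ : Fin 3 → ℝ, (∀ i, 0 ≤ α i) → (∀ i, 0 ≤ γ i) →
      α 0 * α 1 * α 2 * (γ 0 * γ 1 * γ 2) * T ≤ e * (∑ i, ∑ j, α i * γ j * M i j) ^ 3) :
    T ≤ e * 12 ^ 3 * r ^ 2 * (M 0 1 + M 0 2 + M 1 1 + M 1 2) := by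
  set c := M 0 1 + M 0 2 + M 1 1 + M 1 2 with hcdef
  set K : ℝ := e * 12 ^ 3 with hK
  have hc4 : c ≤ 4 * r := by linarith [h1 0 1, h1 0 2, h1 1 1, h1 1 2]
  have hcn : 0 ≤ c := by linarith [h0 0 1, h0 0 2, h0 1 1, h0 1 2]
  have key : ∀ s : ℝ, 0 < s → T ≤ K * (r + s) ^ 2 * (c + s) := by
    intro s hs
    have hr' : 0 < r + s := by positivity
    have hc' : 0 < c + s := by positivity
    have hrr : r ≤ r + s := by linarith
    have hcc : c ≤ c + s := by linarith
    have hcr : c + s ≤ 4 * (r + s) := by linarith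
    generalize r + s = r' at *
    generalize c + s = c' at *
    have h4 := hT ![r', r', c'] ![c', r', r'] (fun i => by fin_cases i <;> simp [hr'.le, hc'.le])
      (fun i => by fin_cases i <;> simp [hr'.le, hc'.le])
    simp only [Fin.sum_univ_three, Matrix.cons_val_zero, Matrix.cons_val_one, Matrix.cons_val_two,
      Matrix.head_cons, Matrix.tail_cons] at h4
    have b1 : ∀ a b, r' * c' * M a b ≤ r' ^ 2 * c' := fun a b => by
      have := (h1 a b).trans hrr
      calc _ ≤ r' * c' * r' := by gcongr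
        _ = _ := by ring
    have b2 : ∀ {e : ℝ}, e ≤ c → r' * r' * e ≤ r' ^ 2 * c' := fun {e} he => by
      calc _ ≤ r' * r' * c' := by gcongr; exact he.trans hcc
        _ = _ := by ring
    have b3 : c' * c' * M 2 0 ≤ 4 * (r' ^ 2 * c') := by
      have := (h1 2 0).trans hrr
      have := h0 2 0
      calc _ ≤ c' * (4 * r') * r' := by gcongr
        _ = _ := by ring
    have e1 := b2 (e := M 0 1) (by linarith [h0 0 2, h0 1 1, h0 1 2])
    have e2 := b2 (e := M 0 2) (by linarith [h0 0 1, h0 1 1, h0 1 2])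
    have e3 := b2 (e := M 1 1) (by linarith [h0 0 2, h0 0 1, h0 1 2])
    have e4 := b2 (e := M 1 2) (by linarith [h0 0 2, h0 1 1, h0 0 1])
    have h5 : r' * r' * c' * (c' * r' * r') * T ≤ e * (12 * (r' ^ 2 * c')) ^ 3 := by
      refine h4.trans (mul_le_mul_of_nonneg_left (pow_le_pow_left₀ ?_ ?_ 3) he)
      · have := h0 0 0; have := h0 0 1; have := h0 0 2; have := h0 1 0; have := h0 1 1
        have := h0 1 2; have := h0 2 0; have := h0 2 1; have := h0 2 2; positivity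
      · have f1 := b1 0 0; have f2 := b1 1 0; have f3 := b1 2 1; have f4 := b1 2 2
        rw [mul_comm r' c'] at f3 f4
        linarith
    have h6 : r' ^ 4 * c' ^ 2 * T ≤ r' ^ 4 * c' ^ 2 * (K * r' ^ 2 * c') := by
      calc r' ^ 4 * c' ^ 2 * T = r' * r' * c' * (c' * r' * r') * T := by ring
        _ ≤ _ := h5
        _ = _ := by rw [hK]; ring
    exact le_of_mul_le_mul_left h6 (by positivity)
  have hlim : Tendsto (fun s : ℝ => K * (r + s) ^ 2 * (c + s)) (𝓝[>] 0) (𝓝 (K * r ^ 2 * c)) := by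
    have : Continuous fun s : ℝ => K * (r + s) ^ 2 * (c + s) := by fun_prop
    simpa using (this.tendsto 0).mono_left nhdsWithin_le_nhds
  exact ge_of_tendsto hlim (eventually_nhdsWithin_of_forall key)

/-- the fine bound on the four-point correlation. -/
theorem corr_fine (hN : NewtonStmt) (hn : 1 ≤ n) (hJ : Ferro J) (hβ : 0 < β) {r : ℝ}
    (hr0 : 0 ≤ r) (hr : ∀ x, ev n J β h (Sm n x * Sp n x) = r) (x y z t : X) (hyz : y ≠ z) :
    ev n J β h (Sm n x * num n y * (num n z * Sp n t)) ≤ 4 / 3 * Real.exp 1 ^ 3 * 12 ^ 3 * r ^ 2 *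
      (ev n J β h (Sm n x * Sp n z) + ev n J β h (Sm n x * Sp n t) +
        ev n J β h (Sm n y * Sp n z) + ev n J β h (Sm n y * Sp n t)) := by
  have h1 : Pos (Sm n x * (Sm n y * Sp n y) * ((Sm n z * Sp n z) * Sp n t) -
      Sm n x * num n y * (num n z * Sp n t)) :=
    pos_mul_sub ((pos_Sm _).mul (pos_num _)) (((pos_Sm _).mul (pos_Sp _)).mul (pos_Sp _))
      (pos_mul_sub (pos_Sm _) ((pos_Sm _).mul (pos_Sp _)) (pos_sub_self _) (pos_SmSp_sub_num y))
      (pos_mul_sub (pos_num _) (pos_Sp _) (pos_SmSp_sub_num z) (pos_sub_self _))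
  have h2 := ev_mono h hJ hβ.le h1
  have h3 : Sm n x * (Sm n y * Sp n y) * ((Sm n z * Sp n z) * Sp n t) =
      Sm n x * Sm n y * Sm n z * (Sp n y * Sp n z * Sp n t) := by
    simp only [Matrix.mul_assoc]
    rw [← Matrix.mul_assoc (Sp n y), (Sp_commute_Sm hyz).eq, Matrix.mul_assoc]
  rw [h3] at h2
  exact h2.trans (fine_real (by positivity) hr0
    (fun i j => ev n J β h (Sm n (![x, y, z] i) * Sp n (![y, z, t] j)))
    (fun _ _ => c_nonneg hJ hβ _ _) (fun _ _ => c_le hr0 hr _ _)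
    fun α γ hα hγ => newton3 hN hn hJ hβ ![x, y, z] ![y, z, t] hα hγ)

end Crest.Agent.N337.FV.Hi
end

-- ▼ part N337/FV/High
section

/-!
# Row 337, FV-High: the modes with `β (ε_k + h) ≥ A`
-/

set_option autoImplicit false

namespace Crest.Agent.N337.FV.Hi

open Crest.MathPhysics.SpinModel Filter Topology Matrix Free
open scoped ComplexConjugate

variable {d L : ℕ} [NeZero L] {n : ℕ} {J : (Fin d → ℤ) → ℝ} {β h : ℝ}

/-- the bond mode `V^{-1/2} ∑ₓ χ_k(x) nₓ S⁺_{x+w}`. -/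
noncomputable def Yk (n : ℕ) (k w : Tor d L) : Op (Tor d L) n :=
  (((Real.sqrt ((L : ℝ) ^ d))⁻¹ : ℝ) : ℂ) • ∑ x : Tor d L, chi k x • (num n x * Sp n (x + w))

theorem Jk_eq (k : Tor d L) :
    Jk n J k = ∑ w, (((torJ J L 0 w : ℝ) : ℂ) * (1 - chi k w)) • Yk n k w := by
  unfold Jk Yk
  simp only [smul_comm _ (((Real.sqrt ((L : ℝ) ^ d))⁻¹ : ℝ) : ℂ), ← Finset.smul_sum]
  congr 1
  simp only [Finset.smul_sum, smul_smul]
  rw [Finset.sum_comm (s := Finset.univ) (t := Finset.univ)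
    (f := fun w x => (((torJ J L 0 w : ℝ) : ℂ) * (1 - chi k w) * chi k x) •
      (num n x * Sp n (x + w)))]
  refine Finset.sum_congr rfl fun x _ => ?_
  rw [← Equiv.sum_comp (Equiv.addLeft x)]
  refine Finset.sum_congr rfl fun w _ => ?_
  have : torJ J L x (x + w) = torJ J L 0 w := by
    rw [← torJ_add (J := J) 0 w x, zero_add, add_comm w x]
  simp only [Equiv.coe_addLeft, this, chi_add]
  congr 1; ring

/-- the four-point correlation. -/
noncomputable def corr (n : ℕ) (J : (Fin d → ℤ) → ℝ) (β h : ℝ) (w u : Tor d L) : ℝ :=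
  ev n (torJ J L) β h (Sm n (u + w) * num n u * (num n 0 * Sp n w))

theorem conj_chi_mul (k y : Tor d L) : conj (chi k y) * chi k y = 1 := by
  rw [← chi_neg, ← chi_add, neg_add_cancel, chi_zero]

theorem ev_Yk (hF : Ferro (torJ J L)) (hβ : 0 < β)
    (htr : ∀ x y z t w : Tor d L,
      ev n (torJ J L) β h (Sm n (x + w) * num n (y + w) * (num n (z + w) * Sp n (t + w))) =
      ev n (torJ J L) β h (Sm n x * num n y * (num n z * Sp n t))) (k w : Tor d L) :
    ev n (torJ J L) β h ((Yk n k w)ᴴ * Yk n k w) = ∑ u, (chi k u).re * corr n J β h w u := by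
  have hV : (0 : ℝ) < (L : ℝ) ^ d := vol_pos
  unfold Yk
  rw [ev_csmul_star, Matrix.conjTranspose_sum, Finset.sum_mul_sum, ev_sum]
  simp only [ev_sum]
  rw [Finset.sum_comm]
  have key : ∀ y : Tor d L, ∑ x : Tor d L, ev n (torJ J L) β h
      ((chi k x • (num n x * Sp n (x + w)))ᴴ * (chi k y • (num n y * Sp n (y + w)))) =
      ∑ u, (chi k u).re * corr n J β h w u := by
    intro y
    rw [← Equiv.sum_comp (Equiv.addRight y)]
    refine Finset.sum_congr rfl fun u _ => ?_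
    simp only [Equiv.coe_addRight]
    rw [Matrix.conjTranspose_smul, Matrix.smul_mul, Matrix.mul_smul, smul_smul,
      Matrix.conjTranspose_mul, Sp_conjTranspose, num_conjTranspose,
      ev_csmul hF hβ.le (((pos_Sm _).mul (pos_num _)).mul ((pos_num _).mul (pos_Sp _)))]
    rw [Complex.star_def, chi_add, map_mul, mul_assoc (conj (chi k u)), conj_chi_mul, mul_one,
      Complex.conj_re, corr, ← htr (u + w) u 0 w y, zero_add, add_right_comm u w y, add_comm w y]
  simp only [key, Finset.sum_const, Finset.card_univ, card_Tor, nsmul_eq_mul]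
  rw [Complex.norm_real, Real.norm_eq_abs, sq_abs, inv_pow, Real.sq_sqrt hV.le, ← mul_assoc]
  push_cast
  rw [inv_mul_cancel₀ hV.ne', one_mul]

theorem hat2_mul_re (a : Tor d L → ℝ) (k u : Tor d L) :
    hat2 a k * (chi k u).re = ∑ x, ∑ y, a x * a y * (chi k (u - x + y)).re := by
  have h1 : ((hat2 a k : ℝ) : ℂ) = ∑ x, ∑ y, ((a x * a y : ℝ) : ℂ) * (conj (chi k x) * chi k y) := by
    unfold hat2
    rw [Complex.ofReal_pow, ← Complex.conj_mul', map_sum, Finset.sum_mul_sum]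
    refine Finset.sum_congr rfl fun x _ => Finset.sum_congr rfl fun y _ => ?_
    rw [map_mul, Complex.conj_ofReal]; push_cast; ring
  rw [← Complex.re_ofReal_mul, h1, Finset.sum_mul, Complex.re_sum]
  refine Finset.sum_congr rfl fun x _ => ?_
  rw [Finset.sum_mul, Complex.re_sum]
  refine Finset.sum_congr rfl fun y _ => ?_
  rw [mul_assoc, Complex.re_ofReal_mul, chi_add, chi_sub]
  congr 2; ring

theorem ker_hat2 (a f : Tor d L → ℝ) (u : Tor d L) :
    ker (fun k => hat2 a k * f k) u = ∑ x, ∑ y, a x * a y * ker f (u - x + y) := by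
  unfold ker
  simp only [← mul_div_assoc, ← Finset.sum_div]
  congr 1
  simp only [mul_right_comm _ (f _), hat2_mul_re, Finset.sum_mul, Finset.mul_sum]
  rw [Finset.sum_comm]
  refine Finset.sum_congr rfl fun x _ => ?_
  rw [Finset.sum_comm]
  refine Finset.sum_congr rfl fun y _ => Finset.sum_congr rfl fun k _ => by ring

theorem hat2_nonneg (a : Tor d L → ℝ) (k : Tor d L) : 0 ≤ hat2 a k := sq_nonneg _

theorem sum_j_norm (hJ : Coup J) (k : Tor d L) :
    spinVal n * ∑ w, torJ J L 0 w * ‖1 - chi k w‖ ^ 2 = 2 * epsT n J k := by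
  have h1 := congrArg Complex.re (lap_chi hJ n k 0)
  rw [chi_zero, mul_one, Complex.ofReal_re, Complex.re_ofReal_mul, Complex.re_sum] at h1
  rw [← h1, mul_left_comm, Finset.mul_sum _ _ (2 : ℝ)]
  congr 1
  refine Finset.sum_congr rfl fun w _ => ?_
  have h2 : (chi k w).re ^ 2 + (chi k w).im ^ 2 = 1 := by
    have := Complex.sq_norm (chi k w)
    rw [norm_chi, Complex.normSq_apply] at this; nlinarith
  rw [Complex.re_ofReal_mul, Complex.sq_norm, Complex.normSq_apply]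
  simp only [Complex.sub_re, Complex.one_re, Complex.sub_im, Complex.one_im]
  have : (1 - (chi k w).re) * (1 - (chi k w).re) + (0 - (chi k w).im) * (0 - (chi k w).im) =
      2 * (1 - (chi k w).re) := by nlinarith
  rw [this]; ring

theorem mode_real {q S e E μ Y : ℝ} (hS : 1 / 2 ≤ S) (he : 0 ≤ e) (hμ : 0 < μ) (heE : e ≤ E)
    (hμE : μ ≤ E) (hY : 0 ≤ Y) {T : ℝ} (hT0 : 0 ≤ T) (hT : S * T = 2 * e) (hq : q ≤ T * Y) :
    4 * q / E ^ 2 ≤ 32 * (1 / (e + μ) * Y) := by
  have hE : 0 < E := hμ.trans_le hμE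
  have h1 : T ≤ 4 * E := by nlinarith
  calc 4 * q / E ^ 2 ≤ 4 * (4 * E * Y) / E ^ 2 := by gcongr; exact hq.trans (by gcongr)
    _ = 32 * (1 / (E + E) * Y) := by field_simp; ring
    _ ≤ _ := by gcongr

end Hi

open Crest.MathPhysics.SpinModel Filter Topology Matrix Free Hi

/-- **(High)** -/
theorem high (hM : ModeStmt) (hN : NewtonStmt) : HighStmt := by
  intro d n J hd hn hJ
  obtain ⟨L1, hL1⟩ := hM d n J hd hn hJ
  obtain ⟨C0, L2, -, hL2⟩ := free d n J hd hn hJ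
  set j : ℝ := ∑ z ∈ sp hJ, J z with hj
  have hj0 : 0 ≤ j := Finset.sum_nonneg fun z _ => hJ.nonneg z
  set K1 : ℝ := 16 * Real.exp 1 ^ 2 * n with hK1
  set K2 : ℝ := 4 / 3 * Real.exp 1 ^ 3 * 12 ^ 3 with hK2
  have hK10 : 0 ≤ K1 := by positivity
  have hK20 : 0 ≤ K2 := by positivity
  have hn0 : (0 : ℝ) ≤ n := Nat.cast_nonneg n
  have hC0 : 0 ≤ 32 * j * (K1 + 4 * K2) := by positivity
  refine ⟨1 + 3 * n + 32 * j * (K1 + 4 * K2), max L1 L2, by linarith, ?_⟩
  intro L _ hL β h A hβ hh hA a ha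
  obtain ⟨-, h2, h3, ⟨hρ0, hρr, -⟩, h5, h6⟩ := hL1 L (le_of_max_le_left hL) β h hβ
  obtain ⟨hF, hε, -, hker⟩ := hL2 L (le_of_max_le_right hL)
  obtain ⟨hpar, -, -, -, h7⟩ := h6 a
  clear hL1 hL2 h6
  have hV : (0 : ℝ) < (L : ℝ) ^ d := vol_pos
  have hμ : 0 < A / β := by positivity
  have hr0 : 0 ≤ rS n J L β h := hρ0.trans hρr
  have hr : ∀ x : Tor d L, ev n (torJ J L) β h (Sm n x * Sp n x) = rS n J L β h := fun x => by
    rw [rS, ← h2 0 0 x, zero_add]
  set μ := A / β with hμdef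
  set f : Tor d L → ℝ := fun k => 1 / (epsT n J k + μ) with hf
  have hf0 : ∀ k, 0 ≤ f k := fun k => by have := hε k; positivity
  have hfM : ∀ k, f k ≤ 1 / μ := fun k =>
    one_div_le_one_div_of_le hμ (by linarith [hε k])
  have hG0 : ∀ x, 0 ≤ ker f x := (hker μ hμ).1
  have hshift := fun w => (h7 f fun k => by simp only [hf, epsT_neg hJ]).2.2 hf0 (1 / μ) w hfM
  set Γ : Tor d L → ℝ := ker fun k => hat2 a k * f k with hΓ
  have hΓ0 : ∀ u, 0 ≤ Γ u := fun u => by
    rw [hΓ, ker_hat2]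
    exact Finset.sum_nonneg fun x _ => Finset.sum_nonneg fun y _ =>
      mul_nonneg (mul_nonneg (ha x) (ha y)) (hG0 _)
  have hΓg : Γ 0 = gform n J μ a := by
    simp only [hΓ, ker, gform, hf, chi_zero, Complex.one_re, mul_one, mul_one_div]
  have hQ0 := Qf_nonneg (n := n) (torJ J L) β h a
  have hΓc : ∀ w t : Tor d L, ∑ u, Γ u * ev n (torJ J L) β h (Sm n (u + w) * Sp n t) ≤
      Qf n (torJ J L) β h a / μ := by
    intro w t
    refine le_trans (le_of_eq ?_) ((hshift (w - t)).trans_eq (by ring))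
    simp only [hΓ, ker_hat2, Finset.sum_mul]
    rw [Finset.sum_comm]
    refine Finset.sum_congr rfl fun x _ => ?_
    rw [Finset.sum_comm]
    refine Finset.sum_congr rfl fun y _ => ?_
    rw [← Equiv.sum_comp (Equiv.addRight (x - y))]
    refine Finset.sum_congr rfl fun s _ => ?_
    simp only [Equiv.coe_addRight]
    rw [← h2 (s + (x - y) + w) t (y - t), show s + (x - y) - x + y = s by abel,
      show s + (x - y) + w + (y - t) = x + s + (w - t) by abel, show t + (y - t) = y by abel]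
  -- the correlation sum
  have hcorr : ∀ w : Tor d L, ∑ u, Γ u * corr n J β h w u ≤
      (K1 + 4 * K2) * rS n J L β h ^ 2 * (gform n J μ a + Qf n (torJ J L) β h a / μ) := by
    intro w
    have hb : ∀ u : Tor d L, Γ u * corr n J β h w u ≤
        (if u = 0 then K1 * rS n J L β h ^ 2 * gform n J μ a else 0) +
        K2 * rS n J L β h ^ 2 * (Γ u * ev n (torJ J L) β h (Sm n (u + w) * Sp n 0) +
          Γ u * ev n (torJ J L) β h (Sm n (u + w) * Sp n w) +
          Γ u * ev n (torJ J L) β h (Sm n (u + 0) * Sp n 0) +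
          Γ u * ev n (torJ J L) β h (Sm n (u + 0) * Sp n w)) := by
      intro u
      have hc := fun x y : Tor d L => mul_nonneg (hΓ0 u) (c_nonneg (n := n) (h := h) hF hβ x y)
      split_ifs with hu
      · have b1 := mul_le_mul_of_nonneg_left
          (corr_crude (h := h) hN hn hF hβ hr0 hr (u + w) u 0 w) (hΓ0 u)
        have b2 := mul_nonneg (mul_nonneg hK20 (sq_nonneg (rS n J L β h)))
          (add_nonneg (add_nonneg (add_nonneg (hc (u + w) 0) (hc (u + w) w)) (hc (u + 0) 0))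
            (hc (u + 0) w))
        have b3 : gform n J μ a = Γ u := by rw [hu, hΓg]
        rw [← hK1] at b1
        rw [b3, corr]
        linarith
      · have b1 := mul_le_mul_of_nonneg_left
          (corr_fine (h := h) hN hn hF hβ hr0 hr (u + w) u 0 w hu) (hΓ0 u)
        rw [← hK2] at b1
        rw [corr, add_zero u]
        linarith
    refine (Finset.sum_le_sum fun u _ => hb u).trans ?_
    simp only [Finset.sum_add_distrib, ← Finset.mul_sum, Finset.sum_ite_eq', Finset.mem_univ,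
      if_true]
    have hg0 : 0 ≤ gform n J μ a := hΓg ▸ hΓ0 0
    have hq0 : 0 ≤ Qf n (torJ J L) β h a / μ := div_nonneg hQ0 hμ.le
    have b1 := mul_le_mul_of_nonneg_left (add_le_add (add_le_add (add_le_add (hΓc w 0) (hΓc w w))
      (hΓc 0 0)) (hΓc 0 w)) (mul_nonneg hK20 (sq_nonneg (rS n J L β h)))
    have b2 := mul_nonneg (mul_nonneg hK20 (sq_nonneg (rS n J L β h))) hg0
    have b3 := mul_nonneg (mul_nonneg hK10 (sq_nonneg (rS n J L β h))) hq0
    linarith
  -- one mode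
  set Y : Tor d L → ℝ := fun k =>
    ∑ w, torJ J L 0 w * ev n (torJ J L) β h ((Yk n k w)ᴴ * Yk n k w) with hY
  have hY0 : ∀ k, 0 ≤ Y k := fun k => Finset.sum_nonneg fun w _ =>
    mul_nonneg (hF.nonneg _ _) (ev_star_nonneg _ _ _ _)
  have hmode : ∀ k : Tor d L, A ≤ β * (epsT n J k + h) →
      uk n J β h k ≤ 32 * (f k * Y k) + 3 * n * Real.exp (-(A / 2)) := by
    intro k hk
    obtain ⟨e1, e2, -⟩ := h5 k
    have hE : 0 < epsT n J k + h := by linarith [hε k]
    have b1 := one_mode hβ (Bk n k) (Jk n J k) hE hA hk hn0 e1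
      (show vk n J β h k - uk n J β h k ≤ n by linarith)
    have b2 := ev_wsum_le (J := torJ J L) (β := β) (h := h) (fun w => torJ J L 0 w)
      (fun w => hF.nonneg _ _) (fun w => 1 - chi k w) (Yk n k)
    rw [← Jk_eq] at b2
    have hS : 1 / 2 ≤ spinVal n := by
      have : (1 : ℝ) ≤ n := by exact_mod_cast hn
      unfold spinVal; linarith
    have b3 := mode_real hS (hε k) hμ (by linarith : epsT n J k ≤ epsT n J k + h)
      (by rw [hμdef, div_le_iff₀' hβ]; exact hk) (hY0 k)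
      (Finset.sum_nonneg fun w _ => mul_nonneg (hF.nonneg _ _) (sq_nonneg _)) (sum_j_norm hJ k) b2
    exact b1.trans (add_le_add_left b3 _)
  have hsum : (∑ k, hat2 a k * (f k * Y k)) / (L : ℝ) ^ d =
      ∑ w, torJ J L 0 w * ∑ u, Γ u * corr n J β h w u := by
    simp only [hY, ev_Yk hF hβ h3, hΓ, ker, Finset.mul_sum, Finset.sum_div, Finset.sum_mul]
    rw [Finset.sum_comm]
    refine Finset.sum_congr rfl fun w _ => ?_
    rw [Finset.sum_comm]
    refine Finset.sum_congr rfl fun u _ => Finset.sum_congr rfl fun k _ => by ring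
  have hjs : ∑ w : Tor d L, torJ J L 0 w = j := by
    simpa using sum_torJ_real hJ (0 : Tor d L) fun _ => 1
  have hsum2 : (∑ k, hat2 a k * (f k * Y k)) / (L : ℝ) ^ d ≤
      j * ((K1 + 4 * K2) * rS n J L β h ^ 2 * (gform n J μ a + Qf n (torJ J L) β h a / μ)) := by
    rw [hsum, ← hjs, Finset.sum_mul]
    exact Finset.sum_le_sum fun w _ => mul_le_mul_of_nonneg_left (hcorr w) (hF.nonneg _ _)
  have hfin : (∑ k ∈ Finset.univ.filter (fun k : Tor d L => A ≤ β * (epsT n J k + h)),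
      hat2 a k * uk n J β h k) ≤
      ∑ k, hat2 a k * (32 * (f k * Y k) + 3 * n * Real.exp (-(A / 2))) := by
    refine (Finset.sum_le_sum fun k hk => mul_le_mul_of_nonneg_left
      (hmode k (Finset.mem_filter.1 hk).2) (hat2_nonneg a k)).trans
      (Finset.sum_le_sum_of_subset_of_nonneg (Finset.filter_subset _ _) fun k _ _ => ?_)
    exact mul_nonneg (hat2_nonneg a k)
      (add_nonneg (mul_nonneg (by norm_num) (mul_nonneg (hf0 k) (hY0 k))) (by positivity))
  have heq : (∑ k, hat2 a k * (32 * (f k * Y k) + 3 * n * Real.exp (-(A / 2)))) / (L : ℝ) ^ d =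
      32 * ((∑ k, hat2 a k * (f k * Y k)) / (L : ℝ) ^ d) +
        3 * n * Real.exp (-(A / 2)) * ∑ x, a x ^ 2 := by
    rw [← hpar, ← mul_div_assoc, ← mul_div_assoc, ← add_div, Finset.mul_sum, Finset.mul_sum,
      ← Finset.sum_add_distrib]
    congr 1
    exact Finset.sum_congr rfl fun k _ => by ring
  refine (div_le_div_of_nonneg_right hfin hV.le).trans (heq.trans_le ?_)
  have hP : 0 ≤ rS n J L β h ^ 2 * (gform n J μ a + Qf n (torJ J L) β h a / μ) :=
    mul_nonneg (sq_nonneg _) (add_nonneg (hΓg ▸ hΓ0 0) (div_nonneg hQ0 hμ.le))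
  have hR : 0 ≤ Real.exp (-(A / 2)) * ∑ x, a x ^ 2 := by positivity
  have c1 := mul_nonneg hC0 hR
  have c2 := mul_nonneg hn0 hP
  linarith

end Crest.Agent.N337.FV
end

-- ▼ part N337/FV/Sharp

/-!
# Row 337, part FV: the sharp two-sided bound `FinVolStmt` (helper34)
-/

set_option autoImplicit false

namespace Crest.Agent.N337.FV

open Crest.MathPhysics.SpinModel Filter Topology

namespace Sh

/-- consequences of the moment inequalities for one mode. -/
theorem mode_real {u v m0 m2 e β ζ η N : ℝ} (hβ : 0 < β) (he : 0 < e) (hζ : 0 ≤ ζ) (hζη : ζ ≤ η)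
    (hη : η ≤ 1 / 4) (hm : 0 < v - u) (hN : v - u ≤ N) (h5 : (v - u) ^ 2 ≤ m0 * m2)
    (h7 : ∀ E : ℝ, 0 < E → u < v → m2 ≤ E * (v - u) → (v - u) / (Real.exp (β * E) - 1) ≤ u)
    (h8 : ∀ E : ℝ, 0 < E → m2 = E * (v - u) → u ≤ (v - u) / (Real.exp (β * E) - 1) +
      (m0 - (v - u) / E) * (1 + β * E + 6 * (β * E) ^ 2) / β)
    (hE : |m2 - e * (v - u)| ≤ ζ * (e * (v - u))) :
    (v - u) * (1 / (Real.exp (β * (1 + η) * e) - 1)) ≤ u ∧ 0 ≤ m0 - (v - u) * (1 - ζ) / e ∧
    ∀ A : ℝ, 1 ≤ A → β * e ≤ A → u ≤ N * (1 / (Real.exp (β * (1 - η) * e) - 1)) +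
      27 * A ^ 2 / β * (m0 - (v - u) * (1 - ζ) / e) := by
  set m := v - u with hmd
  obtain ⟨E, hEm⟩ : ∃ E, m2 = E * m := ⟨m2 / m, by field_simp⟩
  have hem : 0 < e * m := mul_pos he hm
  obtain ⟨k1, k2⟩ := abs_le.1 hE
  have a1 : (1 - ζ) * e ≤ E := le_of_mul_le_mul_right (by rw [← hEm]; linarith) hm
  have a2 : E ≤ (1 + ζ) * e := le_of_mul_le_mul_right (by rw [← hEm]; linarith) hm
  have hE0 : 0 < E := lt_of_lt_of_le (mul_pos (by linarith) he) a1
  have a3 : m / E ≤ m0 := by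
    rw [div_le_iff₀ hE0]
    refine le_of_mul_le_mul_right ?_ hm
    rw [hEm] at h5; linarith
  have a4 : m * (1 - ζ) / e ≤ m / E := by
    rw [div_le_div_iff₀ he hE0, mul_assoc]
    refine mul_le_mul_of_nonneg_left ?_ hm.le
    have := mul_le_mul_of_nonneg_left a2 (by linarith : 0 ≤ 1 - ζ)
    nlinarith [mul_nonneg (sq_nonneg ζ) he.le]
  refine ⟨?_, by linarith, fun A hA hlow => (h8 E hE0 hEm).trans (add_le_add ?_ ?_)⟩
  · rw [mul_one_div, mul_assoc]
    refine h7 _ (mul_pos (by linarith) he) (by linarith) ?_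
    nlinarith [mul_le_mul_of_nonneg_right hζη hem.le]
  · have b1 : 0 < β * (1 - η) * e := mul_pos (mul_pos hβ (by linarith)) he
    have b2 : 0 < Real.exp (β * (1 - η) * e) - 1 := sub_pos.2 (Real.one_lt_exp_iff.2 b1)
    have b3 : β * (1 - η) * e ≤ β * E := by
      rw [mul_assoc]
      exact mul_le_mul_of_nonneg_left ((mul_le_mul_of_nonneg_right (by linarith) he.le).trans a1) hβ.le
    rw [mul_one_div]
    exact div_le_div₀ (hm.le.trans hN) hN b2 (by gcongr)
  · have b1 : β * E ≤ 2 * A := by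
      have := mul_le_mul_of_nonneg_left a2 hβ.le
      nlinarith [mul_pos hβ he]
    have b2 : 0 < β * E := mul_pos hβ hE0
    have b3 : 1 + β * E + 6 * (β * E) ^ 2 ≤ 27 * A ^ 2 := by nlinarith
    rw [div_mul_eq_mul_div, mul_comm (27 * A ^ 2)]
    gcongr
    linarith

variable {d L : ℕ} [NeZero L] {n : ℕ} {J : (Fin d → ℤ) → ℝ}

/-- the unit mass at the origin. -/
noncomputable def dl : Tor d L → ℝ := fun x => if x = 0 then 1 else 0

omit [NeZero L] in
theorem dl_nonneg (x : Tor d L) : 0 ≤ dl x := by unfold dl; split_ifs <;> norm_num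
theorem SpF_dl : SpF n (dl : Tor d L → ℝ) = Sp n 0 := by simp [SpF, dl, apply_ite]
theorem SmF_dl : SmF n (dl : Tor d L → ℝ) = Sm n 0 := by simp [SmF, dl, apply_ite]
theorem hat2_dl (k : Tor d L) : hat2 dl k = 1 := by simp [hat2, dl, apply_ite]
theorem sum_dl_sq : ∑ x : Tor d L, dl x ^ 2 = 1 := by simp [dl]
theorem conv_dl (f : Tor d L → ℝ) : (fun x => ∑ y, ker f (x - y) * dl y) = ker f := by
  funext x; simp [dl]
theorem ker_zero (f : Tor d L → ℝ) : ker f 0 = (∑ k, f k) / (L : ℝ) ^ d := by simp [ker]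
theorem Qf_dl (β h : ℝ) : Qf n (torJ J L) β h dl = rS n J L β h := by
  rw [Qf, SpF_dl, SmF_dl, rS]

/-- `n ρ ≤ r + e² r²`. -/
theorem n_rho_le (hN : NewtonStmt) (hn : 1 ≤ n) (hF : Ferro (torJ J L)) {β : ℝ} (hβ : 0 < β)
    (h : ℝ) : n * rho n J L β h ≤ rS n J L β h + Real.exp 1 ^ 2 * rS n J L β h ^ 2 := by
  have h1 := hN _ n _ β h hn hF hβ dl dl dl_nonneg dl_nonneg 2 (by norm_num)
  rw [SpF_dl, SmF_dl] at h1
  have h2 := ev_mono h hF hβ.le (pos_Sm2Sp2_sub (n := n) (0 : Tor d L))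
  have h3 : Sm n (0 : Tor d L) * Sp n 0 = ((n : ℝ) : ℂ) • num n 0 - num n 0 * (num n 0 - 1) := by
    rw [Sm_mul_Sp]
    simp only [Matrix.mul_sub, Matrix.mul_add, Matrix.mul_smul, Matrix.mul_one, Complex.ofReal_add, add_smul,
      Complex.ofReal_one, one_smul]
    abel
  have h4 : rS n J L β h = n * rho n J L β h - ev n (torJ J L) β h (num n 0 * (num n 0 - 1)) := by
    rw [rS, h3, ev_sub, ev_smul, rho]
  have h5 : ((2 : ℕ).factorial : ℝ) ^ 2 * (Real.exp 1 * rS n J L β h / (2 : ℕ)) ^ 2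
      = Real.exp 1 ^ 2 * rS n J L β h ^ 2 := by
    generalize Real.exp 1 = E; norm_num [Nat.factorial]; ring
  change _ ≤ _ * (_ * rS n J L β h / _) ^ 2 at h1
  linarith

theorem exp_le_pow : ∃ X : ℝ, 0 ≤ X ∧ ∀ s : ℝ, 0 < s →
    Real.exp (-((s ^ 2)⁻¹ / 2)) ≤ X * s ^ 230 := by
  refine ⟨(Nat.factorial 115 : ℝ) * 2 ^ 115, by positivity, fun s hs => ?_⟩
  have h1 := Real.pow_div_factorial_le_exp ((s ^ 2)⁻¹ / 2) (by positivity) 115
  rw [Real.exp_neg, inv_le_comm₀ (Real.exp_pos _) (by positivity)]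
  refine le_trans (le_of_eq ?_) h1
  generalize (Nat.factorial 115 : ℝ) = F
  field_simp

theorem coef_le {N K δ ρ : ℝ} (hN : 1 ≤ N) (h0 : 0 ≤ ρ) (h1 : ρ ≤ K * δ) :
    (1 + K * δ) * N - (N - 2 * ρ) * (1 - 8 * K * δ) ≤ 11 * N * K * δ := by
  nlinarith [mul_nonneg h0 (h0.trans h1), mul_le_mul_of_nonneg_right hN (h0.trans h1)]

theorem le_four_mul {D κ : ℝ} (hD : 0 ≤ D) (h : 1 / 2 ≤ κ) : D ≤ 4 * (κ ^ 2 * D) := by
  nlinarith [mul_nonneg hD (show 0 ≤ 4 * κ ^ 2 - 1 by nlinarith)]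

theorem rpow_eq {β : ℝ} (hβ : 0 < β) (k : ℕ) {q : ℝ} (h : q = -(1 / 80) * k) :
    β ^ q = (β ^ (-(1 / 80) : ℝ)) ^ k := by
  rw [← Real.rpow_natCast, ← Real.rpow_mul hβ.le, h]

end Sh

set_option maxHeartbeats 800000 in
open Sh in
theorem finVol (hM : ModeStmt) (hH : HighStmt) (hB : BootStmt) (hN : NewtonStmt) : FinVolStmt := by
  intro d n J hd hn hJ
  obtain ⟨LM, hM⟩ := hM d n J hd hn hJ
  obtain ⟨C, LH, hC, hH⟩ := hH d n J hd hn hJ
  obtain ⟨K, β0, hK, hβ0, hB⟩ := hB d n J hd hn hJ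
  obtain ⟨F, LF, hF, hFr⟩ := free d n J hd hn hJ
  obtain ⟨X, hX0, hX⟩ := exp_le_pow
  have hn1 : (1 : ℝ) ≤ n := by exact_mod_cast hn
  obtain ⟨c, hc⟩ : ∃ c : ℝ, c = Real.exp 1 ^ 2 * K ^ 2 + C * K ^ 2 * (2 * F + K)
    + C * X + 27 * (4 * (11 * n * K * (2 * F))) := ⟨_, rfl⟩
  have hc0 : 0 ≤ c := by rw [hc]; positivity
  refine ⟨max β0 ((c + 8 * K) ^ 80), lt_max_of_lt_left hβ0, fun β hβ h hh => ?_⟩
  have hβ1 : 1 < β := hβ0.trans_le ((le_max_left _ _).trans hβ)
  have hβp : 0 < β := by linarith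
  obtain ⟨LB, hB⟩ := hB β ((le_max_left _ _).trans hβ) h hh
  obtain ⟨s, hs⟩ : ∃ s : ℝ, s = β ^ (-(1 / 80) : ℝ) := ⟨_, rfl⟩
  have hs0 : 0 < s := hs ▸ Real.rpow_pos_of_pos hβp _
  have e80 : β * s ^ 80 = 1 := by
    rw [hs, ← rpow_eq hβp 80 (q := -1) (by norm_num), Real.rpow_neg_one, mul_inv_cancel₀ hβp.ne']
  have e115 : β ^ (-(23 / 16 : ℝ)) = s ^ 115 := hs ▸ rpow_eq hβp 115 (by norm_num)
  have e100 : β ^ (-(5 / 4 : ℝ)) = s ^ 100 := hs ▸ rpow_eq hβp 100 (by norm_num)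
  have e220 : β ^ (-(11 / 4 : ℝ)) = s ^ 220 := hs ▸ rpow_eq hβp 220 (by norm_num)
  clear hs
  have hcs : (c + 8 * K) * s ≤ 1 := by
    refine (pow_le_one_iff_of_nonneg (by positivity) (by norm_num : (80 : ℕ) ≠ 0)).1 ?_
    rw [mul_pow, ← e80]
    exact mul_le_mul_of_nonneg_right ((le_max_right _ _).trans hβ) (by positivity)
  have hKs : 8 * K * s ≤ 1 := by nlinarith
  have hcs' : c * s ≤ 1 := by nlinarith
  have hs8 : s ≤ 1 / 8 := by nlinarith
  have hs1 : s ≤ 1 := by linarith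
  have pw : ∀ a b : ℕ, a ≤ b → s ^ b ≤ s ^ a := fun a b hab => pow_le_pow_of_le_one hs0.le hs1 hab
  obtain ⟨L1, hL1⟩ := exists_nat_ge (max (s ^ 78)⁻¹ (h * s ^ 39)⁻¹)
  refine ⟨max (max LM LH) (max (max LB LF) L1), fun L _ hL => ?_⟩
  simp only [max_le_iff] at hL
  obtain ⟨⟨l1, l2⟩, ⟨l3, l4⟩, l5⟩ := hL
  obtain ⟨-, -, -, ⟨r0, r1, r2⟩, hk, ha⟩ := hM L l1 β h hβp
  obtain ⟨hr, hD⟩ := hB L l3
  obtain ⟨hFe, hε, -, hker⟩ := hFr L l4
  have hV : (0 : ℝ) < (L : ℝ) ^ d := Free.vol_pos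
  have hLV : (L1 : ℝ) ≤ (L : ℝ) ^ d := by
    have h1 : (1 : ℝ) ≤ L := by exact_mod_cast NeZero.pos L
    exact (Nat.cast_le.2 l5).trans (le_self_pow₀ h1 (by omega))
  have hV1 : (s ^ 78)⁻¹ ≤ (L : ℝ) ^ d := ((le_max_left _ _).trans hL1).trans hLV
  have hV2 : (h * s ^ 39)⁻¹ ≤ (L : ℝ) ^ d := ((le_max_right _ _).trans hL1).trans hLV
  rw [e115] at hr hD
  intro ρ η
  have hρ : ρ = rho n J L β h := rfl
  have hη : η = s ^ 100 := e100
  clear_value ρ η
  subst hρ hη
  rw [e220]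
  set ρ := rho n J L β h
  set r := rS n J L β h
  set V := (L : ℝ) ^ d
  set ζ := 8 * K * s ^ 115 with hζ
  have z0 : 0 ≤ ζ := by positivity
  have z1 : ζ ≤ s ^ 100 := by
    have := mul_le_mul_of_nonneg_right hKs (pow_pos hs0 114).le
    calc ζ = 8 * K * s * s ^ 114 := by rw [hζ]; ring
      _ ≤ _ := by linarith [pw 100 114 (by norm_num)]
  have z2 : s ^ 100 ≤ 1 / 8 := by simpa using (pw 1 100 (by norm_num)).trans (by simpa using hs8)
  have z3 : 8 * r ≤ ζ := by rw [hζ]; linarith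
  have m0 : 1 / 2 ≤ n - 2 * ρ := by linarith
  -- the modes
  have hmode := fun k : Tor d L => by
    obtain ⟨-, -, -, -, q5, -, q7, q8⟩ := momStmt _ (hamF n (torJ J L) h) (Bk n k) β
      (hamF_herm _ h) hβp
    have he : 0 < epsT n J k + h := by linarith [hε k]
    exact mode_real (u := uk n J β h k) (v := vk n J β h k) (m0 := m0k n J β h k)
      (m2 := m2k n J β h k) (N := n) hβp he z0 z1 (by linarith) (by rw [(hk k).2.1]; linarith)
      (by rw [(hk k).2.1]; linarith) q5 q7 q8 ((hk k).2.2.trans (by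
        rw [(hk k).2.1]
        have a1 : epsT n J k ≤ (epsT n J k + h) * (2 * (n - 2 * ρ)) :=
          (le_add_of_nonneg_right hh.le).trans (le_mul_of_one_le_right he.le (by linarith))
        have a2 := mul_le_mul_of_nonneg_left a1 (by linarith : 0 ≤ 4 * r)
        have a3 := mul_le_mul_of_nonneg_right z3
          (mul_nonneg he.le (by linarith : 0 ≤ n - 2 * ρ))
        linarith))
  simp only [fun k => (hk k).2.1] at hmode
  have hQ : r = (∑ k : Tor d L, uk n J β h k) / V := by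
    simpa only [Qf_dl, hat2_dl, one_mul] using (ha dl).2.1
  have hT : ∀ b : ℝ, 0 < b → ∀ k : Tor d L, 0 ≤ 1 / (Real.exp (b * (epsT n J k + h)) - 1) :=
    fun b hb k => (one_div_pos.2 (sub_pos.2 (Real.one_lt_exp_iff.2
      (mul_pos hb (by linarith [hε k]))))).le
  refine ⟨by linarith, ?_, ?_⟩
  · have a1 : (n - 2 * ρ) * nTor n J L (β * (1 + s ^ 100)) h ≤ r := by
      rw [hQ, nTor, ← mul_div_assoc, Finset.mul_sum]
      exact div_le_div_of_nonneg_right (Finset.sum_le_sum fun k _ => (hmode k).1) hV.le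
    have a2 : 0 ≤ nTor n J L (β * (1 + s ^ 100)) h :=
      div_nonneg (Finset.sum_nonneg fun k _ => hT _ (by positivity) k) hV.le
    refine le_of_mul_le_mul_left ?_ (by linarith : (0 : ℝ) < n)
    have a3 : n * (1 - s ^ 100) ≤ n - 2 * ρ := by nlinarith [pow_pos hs0 100]
    have a4 := mul_le_mul_of_nonneg_right a3 a2
    linarith
  · -- the upper bound
    have eA : (s ^ 2)⁻¹ / β = s ^ 78 := by
      rw [div_eq_iff hβp.ne', inv_eq_iff_eq_inv]
      exact eq_inv_of_mul_eq_one_left (by rw [← e80]; ring)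
    have hA : 1 ≤ (s ^ 2)⁻¹ := one_le_inv₀ (by positivity) |>.2 (pow_le_one₀ hs0.le hs1)
    have hμ : 0 < s ^ 78 := by positivity
    obtain ⟨g0, g1, g2⟩ := hker _ hμ
    have t0 : max 1 (tdist (0 : Tor d L) 0 : ℝ) = 1 := by simp [Free.tdist_self]
    -- high modes
    have hi := hH L l2 β h _ hβp hh hA dl dl_nonneg
    simp only [hat2_dl, one_mul, sum_dl_sq, mul_one, Qf_dl, eA, gform] at hi
    have b1 : (∑ k : Tor d L, 1 / (epsT n J k + s ^ 78)) / V ≤ 2 * F := by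
      have := g1 0
      rw [ker_zero, t0, div_one] at this
      have b : F / (s ^ 78 * V) ≤ F := div_le_self (by linarith) (by
        rwa [inv_le_iff_one_le_mul₀' hμ] at hV1)
      linarith
    have b2 : r / s ^ 78 ≤ K := by
      rw [div_le_iff₀ hμ]
      exact hr.trans (mul_le_mul_of_nonneg_left (pw 78 115 (by norm_num)) (by linarith))
    have b3 : r ^ 2 ≤ K ^ 2 * s ^ 230 :=
      (pow_le_pow_left₀ (r0.trans r1) hr 2).trans_eq (by ring)
    have hi' : (∑ k ∈ Finset.univ.filter (fun k : Tor d L => (s ^ 2)⁻¹ ≤ β * (epsT n J k + h)),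
        uk n J β h k) / V ≤ (C * K ^ 2 * (2 * F + K) + C * X)
          * s ^ 230 := by
      refine hi.trans ?_
      have b4 : 0 ≤ (∑ k : Tor d L, 1 / (epsT n J k + s ^ 78)) / V + r / s ^ 78 :=
        add_nonneg (div_nonneg (Finset.sum_nonneg fun k _ => by have := hε k; positivity) hV.le)
          (div_nonneg (r0.trans r1) hμ.le)
      have b5 := mul_le_mul (mul_le_mul_of_nonneg_left b3 (by linarith : 0 ≤ C))
        (add_le_add b1 b2) b4 (by positivity)
      have b6 := mul_le_mul_of_nonneg_left (hX s hs0) (by linarith : 0 ≤ C)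
      linarith
    -- low modes
    set κ : Tor d L → ℝ := fun k => s ^ 78 / (s ^ 78 + epsT n J k) with hκ
    set D : Tor d L → ℝ := fun k => m0k n J β h k - (n - 2 * ρ) * (1 - ζ) / (epsT n J k + h)
      with hDd
    have c1 : ∀ x, 0 ≤ ker κ x := fun x => by
      have : ker κ x = s ^ 78 * ker (fun k => 1 / (epsT n J k + s ^ 78)) x := by
        rw [ker, ker, ← mul_div_assoc, Finset.mul_sum]
        refine congrArg (· / (L : ℝ) ^ d) (Finset.sum_congr rfl fun k _ => ?_)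
        rw [hκ, ← mul_assoc, mul_one_div, add_comm (epsT n J k)]
      rw [this]; exact mul_nonneg hμ.le (g0 x)
    have c2 : ∀ k, hat2 (ker κ) k = κ k ^ 2 := fun k => by
      have := ((ha dl).2.2.2.2 κ fun k => by simp only [hκ, Free.epsT_neg hJ]).1 k
      rwa [conv_dl, hat2_dl, mul_one] at this
    set G := (∑ k : Tor d L, κ k ^ 2 / (epsT n J k + h)) / V with hG
    have c3 : G ≤ 2 * F * s ^ 39 := by
      have := g2 h hh 0
      rw [ker_zero, show s ^ 78 = (s ^ 39) ^ 2 by ring, Real.sqrt_sq (by positivity),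
        show (s ^ 39) ^ 2 = s ^ 78 by ring] at this
      have b : F / (h * V) ≤ F * s ^ 39 := by
        rw [div_le_iff₀ (by positivity), mul_assoc]
        refine le_mul_of_one_le_right (by linarith) ?_
        rw [inv_le_iff_one_le_mul₀' (by positivity)] at hV2
        linarith
      linarith [min_le_left (F * s ^ 39) (F / max 1 (tdist (0 : Tor d L) 0 : ℝ))]
    have c4 : 0 ≤ G := div_nonneg (Finset.sum_nonneg fun k _ => by
      have := hε k; positivity) hV.le
    have c5 : (∑ k, κ k ^ 2 * D k) / V ≤ 11 * n * K * (2 * F) * s ^ 154 := by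
      have d1 := hD _ c1
      rw [(ha _).2.2.1, gform] at d1
      simp only [c2] at d1
      have d2 : (∑ k, κ k ^ 2 * D k) / V = (∑ k, κ k ^ 2 * m0k n J β h k) / V
          - (n - 2 * ρ) * (1 - ζ) * G := by
        rw [hG, ← mul_div_assoc, ← sub_div, Finset.mul_sum, ← Finset.sum_sub_distrib]
        congr 1
        exact Finset.sum_congr rfl fun k _ => by simp only [hDd]; ring
      have d3 : (1 + K * s ^ 115) * n - (n - 2 * ρ) * (1 - ζ) ≤ 11 * n * K * s ^ 115 :=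
        coef_le hn1 r0 (r1.trans hr)
      have d4 := mul_le_mul d3 c3 c4 (by positivity)
      rw [d2]
      calc _ ≤ ((1 + K * s ^ 115) * n - (n - 2 * ρ) * (1 - ζ)) * G := by linarith
        _ ≤ _ := d4.trans_eq (by ring)
    have eB : 27 * (s ^ 2)⁻¹ ^ 2 / β = 27 * s ^ 76 := by
      rw [sq, ← mul_assoc, mul_div_assoc, eA]; field_simp
    have lo : (∑ k ∈ Finset.univ.filter (fun k : Tor d L => ¬(s ^ 2)⁻¹ ≤ β * (epsT n J k + h)),
        uk n J β h k) / V ≤ n * nTor n J L (β * (1 - s ^ 100)) h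
          + 27 * (4 * (11 * n * K * (2 * F))) * s ^ 230 := by
      have d1 : ∑ k ∈ Finset.univ.filter (fun k : Tor d L => ¬(s ^ 2)⁻¹ ≤ β * (epsT n J k + h)),
          uk n J β h k ≤ ∑ k : Tor d L, (n * (1 / (Real.exp (β * (1 - s ^ 100)
            * (epsT n J k + h)) - 1)) + 27 * s ^ 76 * (4 * (κ k ^ 2 * D k))) := by
        refine (Finset.sum_le_sum fun k hk' => ?_).trans (Finset.sum_le_sum_of_subset_of_nonneg
          (Finset.subset_univ _) fun k _ _ => ?_)
        · have hk2 := not_le.1 (Finset.mem_filter.1 hk').2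
          refine ((hmode k).2.2 _ hA hk2.le).trans (add_le_add le_rfl ?_)
          rw [eB]
          refine mul_le_mul_of_nonneg_left ?_ (by positivity)
          have f1 : epsT n J k + h < s ^ 78 := by rwa [← eA, lt_div_iff₀' hβp]
          have f2 : 1 / 2 ≤ κ k := by
            rw [hκ, le_div_iff₀ (by linarith [hε k])]; linarith
          exact le_four_mul (hmode k).2.1 f2
        · have f3 : 0 ≤ D k := (hmode k).2.1
          exact add_nonneg (mul_nonneg (Nat.cast_nonneg n) (hT _ (mul_pos hβp (by linarith)) k))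
            (mul_nonneg (by positivity) (mul_nonneg zero_le_four (mul_nonneg (sq_nonneg _) f3)))
      refine (div_le_div_of_nonneg_right d1 hV.le).trans ?_
      rw [Finset.sum_add_distrib, ← Finset.mul_sum, ← Finset.mul_sum, ← Finset.mul_sum, add_div,
        mul_div_assoc, mul_div_assoc, mul_div_assoc, nTor]
      have := mul_le_mul_of_nonneg_left c5 (by positivity : 0 ≤ 27 * s ^ 76 * 4)
      refine add_le_add le_rfl ?_
      calc _ = 27 * s ^ 76 * 4 * ((∑ k, κ k ^ 2 * D k) / V) := by ring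
        _ ≤ _ := this.trans_eq (by ring)
    have tot : r ≤ n * nTor n J L (β * (1 - s ^ 100)) h + (C * K ^ 2 * (2 * F + K)
        + C * X + 27 * (4 * (11 * n * K * (2 * F)))) * s ^ 230 := by
      rw [hQ, ← Finset.sum_filter_add_sum_filter_not Finset.univ
        (fun k : Tor d L => (s ^ 2)⁻¹ ≤ β * (epsT n J k + h)), add_div]
      linarith
    have f1 := n_rho_le hN hn hFe hβp h
    have f2 := mul_le_mul_of_nonneg_left b3 (sq_nonneg (Real.exp 1))
    have f3 : n * ρ ≤ n * nTor n J L (β * (1 - s ^ 100)) h + c * s ^ 230 := by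
      rw [hc]; linarith
    have f4 : c * s ^ 230 ≤ n * s ^ 220 := by
      have g3 := mul_le_mul_of_nonneg_right hcs' (pow_pos hs0 229).le
      have g4 := le_mul_of_one_le_left (pow_pos hs0 220).le hn1
      calc _ = c * s * s ^ 229 := by ring
        _ ≤ _ := by linarith [pw 220 229 (by norm_num)]
    refine le_of_mul_le_mul_left ?_ (by linarith : (0 : ℝ) < n)
    linarith

end Crest.Agent.N337.FV
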